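import Vale.Agent.P284.H213.Grp.Lat
import Mathlib.Algebra.Module.ZLattice.Basic

/-!
# P284 (helper275), module SC: the centralizer of `K` is generated by finitely many central elements
-/

noncomputable section

namespace Vale.Agent.P284.H275

open Vale.Agent.P272.K Vale.Agent.P284.H894.V Vale.Agent.P284.H213.Grp

/-- For normalised data the centralizer of `K` is generated by finitely many central elements. -/
theorem exists_gens {Γ : Type} [Group Γ] {q : ℕ} {c : Γ → Cm q} {K : Subgroup Γ}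
    (h : NPkg Γ q c K) : ∃ (m : ℕ) (z : Fin m → Γ), (∀ i g, z i * g = g * z i) ∧
      ∀ g, (∀ k ∈ K, g * k = k * g) → g ∈ Subgroup.closure (Set.range z) := by
  have hlat := h.lat
  have hc1 : c 1 = 0 := hlat.map_one
  set D : Subgroup Γ := Subgroup.centralizer (K : Set Γ) with hD
  have hDm : ∀ g, g ∈ D ↔ ∀ k ∈ K, g * k = k * g := by
    intro g
    rw [hD, Subgroup.mem_centralizer_iff]
    exact ⟨fun h k hk => (h k hk).symm, fun h k hk => (h k hk).symm⟩
  have hinj : ∀ g ∈ D, c g = 0 → g = 1 := by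
    intro g hg hg0
    refine h.cent K le_rfl ?_ g hg0 ((hDm g).1 hg)
    rw [Subgroup.subgroupOf_self]
    infer_instance
  let L : Submodule ℤ (Cm q) := AddSubgroup.toIntSubmodule
    { carrier := c '' (D : Set Γ)
      add_mem' := by
        rintro _ _ ⟨g, hg, rfl⟩ ⟨h, hh, rfl⟩
        exact ⟨g * h, D.mul_mem hg hh, hlat.add g h⟩
      zero_mem' := ⟨1, D.one_mem, hc1⟩
      neg_mem' := by rintro _ ⟨g, hg, rfl⟩; exact ⟨g⁻¹, D.inv_mem hg, hlat.map_inv g⟩ }
  have hmem : ∀ x : L, ∃ g ∈ D, c g = (x : Cm q) := fun x => x.2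
  have hmem' : ∀ g ∈ D, c g ∈ L := fun g hg => ⟨g, hg, rfl⟩
  have : DiscreteTopology L := by
    refine discreteTopology_of_isOpen_singleton_zero ?_
    refine isOpen_singleton_of_finite_mem_nhds 0 (s := Metric.closedBall 0 1) ?_ ?_
    · exact Metric.closedBall_mem_nhds _ one_pos
    · refine Set.Finite.of_injOn (t := {v : Cm q | (∃ g, c g = v) ∧ ‖v‖ ≤ 1})
        (f := Subtype.val) ?_ Subtype.val_injective.injOn (hlat.disc 1)
      intro x hx
      obtain ⟨g, -, hg⟩ := hmem x
      exact ⟨⟨g, hg⟩, mem_closedBall_zero_iff.1 hx⟩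
  have hfin : Module.Finite ℤ L := inferInstance
  obtain ⟨s, hs⟩ := hfin.fg_top
  choose z hzD hzc using hmem
  let e : Fin s.card ≃ s := s.equivFin.symm
  refine ⟨s.card, fun i => z (e i), fun i g => h.central _ ((hDm _).1 (hzD _)) g, fun g hg => ?_⟩
  have hgD : g ∈ D := (hDm g).2 hg
  have hle : Subgroup.closure (Set.range fun i => z (e i)) ≤ D := by
    rw [Subgroup.closure_le]
    rintro _ ⟨i, rfl⟩
    exact hzD _
  have key : ∀ x : L, ∃ y ∈ Subgroup.closure (Set.range fun i => z (e i)), c y = (x : Cm q) := by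
    intro x
    have hx : x ∈ Submodule.span ℤ (s : Set L) := by rw [hs]; trivial
    induction hx using Submodule.span_induction with
    | mem x hx =>
      refine ⟨z x, Subgroup.subset_closure ⟨e.symm ⟨x, hx⟩, ?_⟩, hzc x⟩
      simp only [Equiv.apply_symm_apply]
    | zero => exact ⟨1, one_mem _, hc1⟩
    | add x y _ _ ihx ihy =>
      obtain ⟨a, ha, ha'⟩ := ihx
      obtain ⟨b, hb, hb'⟩ := ihy
      exact ⟨a * b, mul_mem ha hb, by rw [hlat.add, ha', hb']; rfl⟩
    | smul n x _ ih =>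
      obtain ⟨a, ha, ha'⟩ := ih
      refine ⟨a ^ n, zpow_mem ha n, ?_⟩
      rw [hlat.map_zpow, ha']
      exact Int.cast_smul_eq_zsmul ℝ n (x : Cm q)
  obtain ⟨y, hy, hyc⟩ := key ⟨c g, hmem' g hgD⟩
  have h1 : g * y⁻¹ = 1 := by
    refine hinj _ (D.mul_mem hgD (D.inv_mem (hle hy))) ?_
    rw [hlat.add, hlat.map_inv, hyc]
    simp
  rw [mul_inv_eq_one] at h1
  rw [h1]
  exact hy

end Vale.Agent.P284.H275
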