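import Vale.Agent.P284.H275.Res
import Vale.Agent.P284.H501.ExtS
import Vale.Agent.P284.H378.CS
import Mathlib.Analysis.Calculus.DifferentialForm.Basic

/-!
# P284 (helper275), module SC: restriction of the limit data to the closed span of the values of `S`

`P : W → W₀` continuous linear. The forms `P ∘ S`, `P ∘ Θ` and the potentials `P ∘ u` have all the
properties of `S`, `Θ`, `u`. `exists_res`: `W₀` can be chosen such that `π₀ g = 1` for all `g` with
`S (g • y) = S y`.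
-/

open scoped Manifold ContDiff Topology ENNReal InnerProductSpace ComplexConjugate
open Filter MeasureTheory Set

set_option linter.unusedSectionVars false

noncomputable section

namespace Vale.Agent.P284.H275

open Vale.Agent.P272.K Vale.Agent.P284.H573 Vale.Agent.P284.H894.G Vale.Agent.P284.H501
  Vale.Agent.P284.H619 Vale.Agent.P284.H378

section
variable {n q m : ℕ} {X E : Type} [TopologicalSpace X] [ChartedSpace (Cm n) X] [TopologicalSpace E]
  {W W₀ : Type} [NormedAddCommGroup W] [NormedSpace ℂ W] [NormedAddCommGroup W₀] [NormedSpace ℂ W₀]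
  {p : E → X} {F : E → Cm q}

/-- `P ∘ S` -/
def mapF (P : W →L[ℂ] W₀) (S : E → Chart n X → Cm n [⋀^Fin m]→L[ℂ] W) :
    E → Chart n X → Cm n [⋀^Fin m]→L[ℂ] W₀ := fun y e => P.compContinuousAlternatingMap (S y e)

/-- `P ∘ Θ` -/
def mapT (P : W →L[ℂ] W₀) (Θ : E → Chart n X → (Cm n →L[ℂ] W)) :
    E → Chart n X → (Cm n →L[ℂ] W₀) := fun y e => P.comp (Θ y e)

@[simp] lemma mapF_apply (P : W →L[ℂ] W₀) (S : E → Chart n X → Cm n [⋀^Fin m]→L[ℂ] W) (y : E)
    (e : Chart n X) (ξ : Fin m → Cm n) : mapF P S y e ξ = P (S y e ξ) := rfl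

@[simp] lemma mapT_apply (P : W →L[ℂ] W₀) (Θ : E → Chart n X → (Cm n →L[ℂ] W)) (y : E)
    (e : Chart n X) (ξ : Cm n) : mapT P Θ y e ξ = P (Θ y e ξ) := rfl

lemma an_comp (P : W →L[ℂ] W₀) {s : Cm n → Cm n [⋀^Fin m]→L[ℂ] W} {z : Cm n}
    (hs : AnalyticAt ℂ s z) : AnalyticAt ℂ (fun z => P.compContinuousAlternatingMap (s z)) z :=
  ((ContinuousLinearMap.compContinuousAlternatingMapCLM ℂ (Cm n) W W₀ (Fin m) P).analyticAt
    (s z)).comp hs

lemma extDeriv_comp (P : W →L[ℂ] W₀) {s : Cm n → Cm n [⋀^Fin m]→L[ℂ] W} {z : Cm n}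
    (hs : DifferentiableAt ℂ s z) : extDeriv (fun z => P.compContinuousAlternatingMap (s z)) z =
      P.compContinuousAlternatingMap (extDeriv s z) := by
  have h0 : HasFDerivAt (fun z => P.compContinuousAlternatingMap (s z))
      ((ContinuousLinearMap.compContinuousAlternatingMapCLM ℂ (Cm n) W W₀ (Fin m) P).comp
        (fderiv ℂ s z)) z :=
    (ContinuousLinearMap.compContinuousAlternatingMapCLM ℂ (Cm n) W W₀
      (Fin m) P).hasFDerivAt.comp z hs.hasFDerivAt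
  ext ξ
  rw [extDeriv_apply h0.differentiableAt]
  rw [ContinuousLinearMap.compContinuousAlternatingMap_coe, Function.comp_apply,
    extDeriv_apply hs, map_sum]
  refine Finset.sum_congr rfl fun i _ => ?_
  have h1 : HasFDerivAt (fun x => s x (i.removeNth ξ))
      (fderiv ℂ (fun x => s x (i.removeNth ξ)) z) z :=
    (hs.continuousAlternatingMap_apply_const (i.removeNth ξ)).hasFDerivAt
  have h2 : HasFDerivAt (fun x => (P.compContinuousAlternatingMap (s x)) (i.removeNth ξ))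
      (P.comp (fderiv ℂ (fun x => s x (i.removeNth ξ)) z)) z := P.hasFDerivAt.comp z h1
  rw [h2.fderiv, map_zsmul]
  rfl

theorem form_map (P : W →L[ℂ] W₀) {S : E → Chart n X → Cm n [⋀^Fin m]→L[ℂ] W} (h : FormE p S) :
    FormE p (mapF P S) where
  holo := fun y e he => by
    obtain ⟨s, hs, hse⟩ := h.holo y e he
    refine ⟨fun z => P.compContinuousAlternatingMap (s z), an_comp P hs, ?_⟩
    filter_upwards [hse] with y' hy'
    show P.compContinuousAlternatingMap (S y' e) = _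
    rw [hy']
  change := fun y e e' he he' ξ => by
    rw [mapF_apply, mapF_apply, h.change y e e' he he' ξ]

/-- a local representative of `P ∘ S` is `P ∘ s` -/
lemma rep_map (hp : IsCoveringMap p) (P : W →L[ℂ] W₀)
    {S : E → Chart n X → Cm n [⋀^Fin m]→L[ℂ] W} (h : FormE p S) {y : E} {e : Chart n X}
    (he : At e (p y)) {s' : Cm n → Cm n [⋀^Fin m]→L[ℂ] W₀}
    (hs' : ∀ᶠ y' in 𝓝 y, mapF P S y' e = s' (e (p y'))) :
    ∃ s : Cm n → Cm n [⋀^Fin m]→L[ℂ] W, AnalyticAt ℂ s (e (p y)) ∧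
      (∀ᶠ y' in 𝓝 y, S y' e = s (e (p y'))) ∧
      ∀ᶠ z in 𝓝 (e (p y)), s' z = P.compContinuousAlternatingMap (s z) := by
  obtain ⟨s, hs, hse⟩ := h.holo y e he
  refine ⟨s, hs, hse, (ev_iff hp he).1 ?_⟩
  filter_upwards [hs', hse] with y' h1 h2
  rw [← h1, ← h2]
  rfl

theorem closed_map [CompleteSpace W] (hp : IsCoveringMap p) (P : W →L[ℂ] W₀)
    {S : E → Chart n X → Cm n [⋀^Fin m]→L[ℂ] W} (h : FormE p S)
    (hc : ∀ y e (s : Cm n → Cm n [⋀^Fin m]→L[ℂ] W), At e (p y) → AnalyticAt ℂ s (e (p y)) →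
      (∀ᶠ y' in 𝓝 y, S y' e = s (e (p y'))) → ∀ᶠ z in 𝓝 (e (p y)), extDeriv s z = 0)
    (y : E) (e : Chart n X) (s' : Cm n → Cm n [⋀^Fin m]→L[ℂ] W₀) (he : At e (p y))
    (hs' : ∀ᶠ y' in 𝓝 y, mapF P S y' e = s' (e (p y'))) :
    ∀ᶠ z in 𝓝 (e (p y)), extDeriv s' z = 0 := by
  obtain ⟨s, hs, hse, hss⟩ := rep_map hp P h he hs'
  filter_upwards [hss.eventually_nhds, hc y e s he hs hse, hs.eventually_analyticAt] with z h1 h2 h3
  have h4 : extDeriv s' z = extDeriv (fun z => P.compContinuousAlternatingMap (s z)) z :=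
    Filter.EventuallyEq.extDeriv_eq h1
  rw [h4, extDeriv_comp P h3.differentiableAt, h2]
  ext ξ
  simp

theorem relS_map (hp : IsCoveringMap p) (P : W →L[ℂ] W₀)
    {S : E → Chart n X → Cm n [⋀^Fin (q + 1)]→L[ℂ] W} (h : RelS p F S) : RelS p F (mapF P S) where
  form := form_map P h.form
  rel := fun y e f he hf hfs ξ i j hij h1 h2 => by
    rw [mapF_apply, h.rel y e f he hf hfs ξ i j hij h1 h2, map_zero]
  push := fun y e f s' he hf _ hse' => by
    obtain ⟨s, hs, hse, hss⟩ := rep_map hp P h.form he hse'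
    obtain ⟨V, hV, C, hC, hpush⟩ := h.push y e f s he hf hs hse
    obtain ⟨O, hO, hOo, hyO⟩ := mem_nhds_iff.1 (inter_mem hV hss)
    refine ⟨O, hOo.mem_nhds hyO, ‖P‖ₑ ^ 2 * C, ?_, fun g hg => ?_⟩
    · exact ENNReal.mul_ne_top (by simp) hC
    · have h1 : ∀ z ∈ O, g (f z) * ‖s' z‖ₑ ^ 2 ≤ ‖P‖ₑ ^ 2 * (g (f z) * ‖s z‖ₑ ^ 2) := by
        intro z hz
        have h2 : s' z = P.compContinuousAlternatingMap (s z) := (hO hz).2
        have h3 : ‖s' z‖ₑ ≤ ‖P‖ₑ * ‖s z‖ₑ := by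
          rw [h2, ← ofReal_norm, ← ofReal_norm, ← ofReal_norm,
            ← ENNReal.ofReal_mul (norm_nonneg _)]
          exact ENNReal.ofReal_le_ofReal (P.norm_compContinuousAlternatingMap_le (s z))
        calc g (f z) * ‖s' z‖ₑ ^ 2 ≤ g (f z) * (‖P‖ₑ * ‖s z‖ₑ) ^ 2 := by gcongr
          _ = _ := by ring
      calc ∫⁻ z in O, g (f z) * ‖s' z‖ₑ ^ 2
          ≤ ∫⁻ z in O, ‖P‖ₑ ^ 2 * (g (f z) * ‖s z‖ₑ ^ 2) :=
            setLIntegral_mono' hOo.measurableSet h1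
        _ = ‖P‖ₑ ^ 2 * ∫⁻ z in O, g (f z) * ‖s z‖ₑ ^ 2 :=
            lintegral_const_mul' _ _ (by simp)
        _ ≤ ‖P‖ₑ ^ 2 * (C * ∫⁻ x, g x) := by
            gcongr
            exact (lintegral_mono_set fun z hz => (hO hz).1).trans (hpush g hg)
        _ = _ := by ring

end

section
variable {n q m : ℕ} {X E : Type} [TopologicalSpace X] [ChartedSpace (Cm n) X] [TopologicalSpace E]
  {Γ : Type} [Group Γ] [MulAction Γ E]
  {W W₀ : Type} [NormedAddCommGroup W] [InnerProductSpace ℂ W] [NormedAddCommGroup W₀]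
  [InnerProductSpace ℂ W₀] {p : E → X} {F : E → Cm q} {t : Cm q} {K : Subgroup Γ}
  {π : Γ →* (W ≃ₗᵢ[ℂ] W)} {A : Set W} {P : W →L[ℂ] W₀} {J : W₀ →ₗᵢ[ℂ] W}
  {π₀ : Γ →* (W₀ ≃ₗᵢ[ℂ] W₀)}

theorem vpot_map (h : Restr π A W₀ P J π₀) {Θ : E → Chart n X → (Cm n →L[ℂ] W)} {u : E → W}
    (hu : VPot p F t W Θ u) : VPot p F t W₀ (mapT P Θ) (fun y => P (u y)) where
  hol := fun y e hy he => by
    obtain ⟨B, hB, hBe⟩ := hu.hol y e hy he
    refine ⟨fun z => P.comp (B z), ?_, ?_⟩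
    · exact ((ContinuousLinearMap.compL ℂ (Cm n) W W₀ P).analyticAt (B (e (p y)))).comp hB
    · filter_upwards [hBe] with y' hy' hF ξ hξ
      rw [mapT_apply, hy' hF ξ hξ]
      rfl
  change := fun y e e' hy he he' ξ hξ => by
    rw [mapT_apply, mapT_apply, hu.change y e e' hy he he' ξ hξ]
  pot := fun y e hy he c => by
    obtain ⟨g, k, hg, hk, hgk⟩ := hu.pot y e hy he (J c)
    refine ⟨g, k, hg, hk, ?_⟩
    filter_upwards [hgk] with y' hy' hF
    obtain ⟨h1, h2⟩ := hy' hF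
    refine ⟨by rw [h.inner, h1], fun ξ hξ => ?_⟩
    rw [mapT_apply, h.inner, h2 ξ hξ]

theorem vequi_map (h : Restr π A W₀ P J π₀) {Θ : E → Chart n X → (Cm n →L[ℂ] W)} {u : E → W}
    (hu : VEqui p F t K π Θ u) : VEqui p F t K π₀ (mapT P Θ) (fun y => P (u y)) where
  form := fun k hk y e hy he ξ hξ => by
    rw [mapT_apply, mapT_apply, hu.form k hk y e hy he ξ hξ, h.Pπ]
  pot := fun k hk => by
    obtain ⟨b, hb⟩ := hu.pot k hk
    refine ⟨P b, fun y hy => ?_⟩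
    show P (u (k • y)) = _
    rw [hb y hy, map_add, h.Pπ]

theorem the_map (h : Restr π A W₀ P J π₀) {Θ : E → Chart n X → (Cm n →L[ℂ] W)} {M₀ : Set (Cm q)}
    (hT : ThE p F K π Θ M₀) : ThE p F K π₀ (mapT P Θ) M₀ where
  hol := fun y e hy he => by
    obtain ⟨B, hB, hBe⟩ := hT.hol y e hy he
    refine ⟨fun z => P.comp (B z), ?_, ?_⟩
    · exact ((ContinuousLinearMap.compL ℂ (Cm n) W W₀ P).analyticAt (B (e (p y)))).comp hB
    · filter_upwards [hBe] with y' hy' ξ hξ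
      rw [mapT_apply, hy' ξ hξ]
      rfl
  change := fun y e e' hy he he' ξ hξ => by
    rw [mapT_apply, mapT_apply, hT.change y e e' hy he he' ξ hξ]
  equi := fun g y e hy he ξ hξ => by
    rw [mapT_apply, mapT_apply, hT.equi g y e hy he ξ hξ, h.Pπ]
  pot := fun t ht => by
    obtain ⟨u, h1, h2⟩ := hT.pot t ht
    exact ⟨fun y => P (u y), vpot_map h h1, vequi_map h h2⟩

theorem equi_map (h : Restr π A W₀ P J π₀) {S : E → Chart n X → Cm n [⋀^Fin m]→L[ℂ] W}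
    (hS : ∀ (g : Γ) y e, At e (p y) → ∀ ξ, S (g • y) e ξ = π g (S y e ξ)) (g : Γ) (y : E)
    (e : Chart n X) (he : At e (p y)) (ξ : Fin m → Cm n) :
    mapF P S (g • y) e ξ = π₀ g (mapF P S y e ξ) := by
  rw [mapF_apply, mapF_apply, hS g y e he ξ, h.Pπ]

/-- the values of `S` -/
def vals (p : E → X) (S : E → Chart n X → Cm n [⋀^Fin m]→L[ℂ] W) : Set W :=
  {x | ∃ y e ξ, At e (p y) ∧ S y e ξ = x}

theorem J_map {S : E → Chart n X → Cm n [⋀^Fin m]→L[ℂ] W} (h : Restr π (vals p S) W₀ P J π₀)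
    {y : E} {e : Chart n X} (he : At e (p y)) (ξ : Fin m → Cm n) :
    J (mapF P S y e ξ) = S y e ξ := h.JP _ ⟨y, e, ξ, he, rfl⟩

theorem map_ne {S : E → Chart n X → Cm n [⋀^Fin m]→L[ℂ] W} (h : Restr π (vals p S) W₀ P J π₀)
    {y : E} {e : Chart n X} (he : At e (p y)) {ξ : Fin m → Cm n} :
    mapF P S y e ξ = 0 ↔ S y e ξ = 0 := by
  rw [← J_map h he ξ]
  exact (map_eq_zero_iff J J.injective).symm

/-- restriction of the representation to the closed span of the values of `S` -/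
theorem exists_res [CompleteSpace W] (hp : ∀ (g : Γ) y, p (g • y) = p y) (π : Γ →* (W ≃ₗᵢ[ℂ] W))
    (S : E → Chart n X → Cm n [⋀^Fin m]→L[ℂ] W)
    (hS : ∀ (g : Γ) y e, At e (p y) → ∀ ξ, S (g • y) e ξ = π g (S y e ξ)) :
    ∃ (W₀ : Type) (_ : NormedAddCommGroup W₀) (_ : InnerProductSpace ℂ W₀) (_ : CompleteSpace W₀)
      (P : W →L[ℂ] W₀) (J : W₀ →ₗᵢ[ℂ] W) (π₀ : Γ →* (W₀ ≃ₗᵢ[ℂ] W₀)), Restr π (vals p S) W₀ P J π₀ := by
  refine exists_restr π (vals p S) ?_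
  rintro g _ ⟨y, e, ξ, he, rfl⟩
  refine ⟨g • y, e, ξ, ?_, hS g y e he ξ⟩
  rw [hp]
  exact he

/-- elements which preserve `S` act trivially on `W₀` -/
theorem Restr.triv_of {S : E → Chart n X → Cm n [⋀^Fin m]→L[ℂ] W}
    (h : Restr π (vals p S) W₀ P J π₀)
    (hS : ∀ (g : Γ) y e, At e (p y) → ∀ ξ, S (g • y) e ξ = π g (S y e ξ)) {g : Γ}
    (hg : ∀ y e, At e (p y) → ∀ ξ, S (g • y) e ξ = S y e ξ) : π₀ g = 1 := by
  refine h.triv g ?_
  rintro _ ⟨y, e, ξ, he, rfl⟩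
  rw [← hS g y e he ξ, hg y e he ξ]

/-- the same for the subgroup generated by elements which preserve `S` -/
theorem Restr.triv_gens {S : E → Chart n X → Cm n [⋀^Fin m]→L[ℂ] W}
    (h : Restr π (vals p S) W₀ P J π₀)
    (hS : ∀ (g : Γ) y e, At e (p y) → ∀ ξ, S (g • y) e ξ = π g (S y e ξ)) {ι : Type*} (z : ι → Γ)
    (hz : ∀ i y e, At e (p y) → ∀ ξ, S (z i • y) e ξ = S y e ξ) {g : Γ}
    (hg : g ∈ Subgroup.closure (Set.range z)) : π₀ g = 1 := by
  have h1 : Subgroup.closure (Set.range z) ≤ π₀.ker := by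
    rw [Subgroup.closure_le]
    rintro _ ⟨i, rfl⟩
    exact h.triv_of hS (hz i)
  exact h1 hg

end

end Vale.Agent.P284.H275
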