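import Mathlib.LinearAlgebra.SesquilinearForm.Basic
import Mathlib.RingTheory.RootsOfUnity.Complex
import Mathlib.Analysis.SpecialFunctions.Complex.Circle
import Mathlib.Algebra.Field.GeomSum

/-!
# P284 (helper275), module SC: localisation of a vector at a character, before the limit

Let `T` be an operator on a complex vector space `V`. For `ω ^ N = 1` put
`v_ω = ∑_{j < N} ω⁻ʲ Tʲ v`. For every Hermitian quadratic form `Q` (`HQ Q`), Parseval's identity gives
`∑_ω Q (v_ω) = N ∑_{j < N} Q (Tʲ v)`, and `(T - ω) v_ω = ω (Tᴺ v - v)`. So, if `A ≤ κ B` at `v`, with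
`A`, `B` invariant under `T`, there is `ω` with `A (v_ω) ≤ 2 κ B (v_ω)`, `0 < B (v_ω)` and
`B ((T - ω) v_ω) ≤ (8 / N) B (v_ω)`. This is iterated over finitely many commuting operators.
-/

open Complex Finset ComplexConjugate

noncomputable section

namespace Vale.Agent.P284.H275

variable {V : Type*} [AddCommGroup V] [Module ℂ V]

/-- `Q` is the quadratic form of a sesquilinear form. -/
def HQ (Q : V → ℝ) : Prop := ∃ b : V →ₗ⋆[ℂ] V →ₗ[ℂ] ℂ, ∀ v, Q v = (b v v).re

lemma HQ.add {P Q : V → ℝ} (hP : HQ P) (hQ : HQ Q) : HQ (fun v => P v + Q v) := by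
  obtain ⟨b, hb⟩ := hP
  obtain ⟨c, hc⟩ := hQ
  exact ⟨b + c, fun v => by simp [hb v, hc v]⟩

lemma HQ.const_mul {Q : V → ℝ} (hQ : HQ Q) (r : ℝ) : HQ (fun v => r * Q v) := by
  obtain ⟨b, hb⟩ := hQ
  refine ⟨(r : ℂ) • b, fun v => ?_⟩
  simp [hb v]

lemma HQ.zero : HQ (fun _ : V => (0 : ℝ)) := ⟨0, fun v => by simp⟩

lemma HQ.sum {ι : Type*} (s : Finset ι) {Q : ι → V → ℝ} (hQ : ∀ i ∈ s, HQ (Q i)) :
    HQ (fun v => ∑ i ∈ s, Q i v) := by
  classical
  induction s using Finset.induction_on with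
  | empty => simpa using HQ.zero
  | insert i s hi ih =>
    have h := (hQ i (by simp)).add (ih fun j hj => hQ j (by simp [hj]))
    simpa [Finset.sum_insert hi] using h

lemma HQ.comp {Q : V → ℝ} (hQ : HQ Q) {W : Type*} [AddCommGroup W] [Module ℂ W] (T : W →ₗ[ℂ] V) :
    HQ (fun v => Q (T v)) := by
  obtain ⟨b, hb⟩ := hQ
  exact ⟨(b.comp T).compl₂ T, fun v => by simp [hb (T v)]⟩

/-! ### Parseval -/

/-- `v_k = ∑_{j < N} ζ^{-k j} T^j v`, `ζ = exp (2 π i / N)`. -/
def fej (T : V →ₗ[ℂ] V) (N : ℕ) (v : V) (ω : ℂ) : V :=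
  ∑ j ∈ range N, ω⁻¹ ^ j • (T ^ j) v

/-- the root of unity `exp (2 π i / N) ^ k` -/
def rt (N k : ℕ) : ℂ := Complex.exp (2 * Real.pi * Complex.I / N) ^ k

lemma rt_pow {N : ℕ} (hN : N ≠ 0) (k : ℕ) : rt N k ^ N = 1 := by
  have h := (Complex.isPrimitiveRoot_exp N hN).pow_eq_one
  rw [rt, ← pow_mul, mul_comm k N, pow_mul, h, one_pow]

lemma norm_rt {N : ℕ} (hN : N ≠ 0) (k : ℕ) : ‖rt N k‖ = 1 :=
  Complex.norm_eq_one_of_pow_eq_one (rt_pow hN k) hN

lemma rt_ne_zero {N : ℕ} (hN : N ≠ 0) (k : ℕ) : rt N k ≠ 0 := by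
  intro h
  have := norm_rt hN k
  rw [h, norm_zero] at this
  exact zero_ne_one this

lemma conj_eq_inv {z : ℂ} (hz : ‖z‖ = 1) : conj z = z⁻¹ := by
  rw [Complex.inv_def, Complex.normSq_eq_norm_sq, hz]
  simp

lemma sum_rt {N : ℕ} (hN : N ≠ 0) {j l : ℕ} (hj : j < N) (hl : l < N) :
    ∑ k ∈ range N, rt N k ^ j * (rt N k)⁻¹ ^ l = if j = l then (N : ℂ) else 0 := by
  have hp := Complex.isPrimitiveRoot_exp N hN
  set ζ := Complex.exp (2 * Real.pi * Complex.I / N) with hζ
  have hz0 : ζ ≠ 0 := Complex.exp_ne_zero _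
  have h1 : ∀ k, rt N k ^ j * (rt N k)⁻¹ ^ l = (ζ ^ j * ζ⁻¹ ^ l) ^ k := by
    intro k
    simp only [rt, ← hζ]
    rw [mul_pow, ← pow_mul, ← pow_mul, mul_comm k j, inv_pow, ← pow_mul, inv_pow, inv_pow,
      ← pow_mul, mul_comm k l]
  simp only [h1]
  split_ifs with h
  · subst h
    have : ζ ^ j * ζ⁻¹ ^ j = 1 := by rw [← mul_pow, mul_inv_cancel₀ hz0, one_pow]
    simp only [this, one_pow, Finset.sum_const, Finset.card_range, nsmul_eq_mul, mul_one]
  · have hx : ζ ^ j * ζ⁻¹ ^ l ≠ 1 := by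
      intro hx
      rw [inv_pow, mul_inv_eq_one₀ (pow_ne_zero _ hz0)] at hx
      exact h (hp.pow_inj hj hl hx)
    have hxN : (ζ ^ j * ζ⁻¹ ^ l) ^ N = 1 := by
      rw [mul_pow, ← pow_mul, mul_comm j N, pow_mul, hp.pow_eq_one, one_pow, one_mul, inv_pow,
        inv_pow, ← pow_mul, mul_comm l N, pow_mul, hp.pow_eq_one, one_pow, inv_one]
    rw [geom_sum_eq hx, hxN, sub_self, zero_div]

/-- **Parseval's identity.** -/
theorem parseval {Q : V → ℝ} (hQ : HQ Q) (T : V →ₗ[ℂ] V) {N : ℕ} (hN : N ≠ 0) (v : V) :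
    ∑ k ∈ range N, Q (fej T N v (rt N k)) = N * ∑ j ∈ range N, Q ((T ^ j) v) := by
  obtain ⟨b, hb⟩ := hQ
  have h1 : ∀ k, (b (fej T N v (rt N k)) (fej T N v (rt N k))) =
      ∑ j ∈ range N, ∑ l ∈ range N,
        (rt N k ^ j * (rt N k)⁻¹ ^ l) * b ((T ^ j) v) ((T ^ l) v) := by
    intro k
    unfold fej
    rw [LinearMap.map_sum₂]
    refine Finset.sum_congr rfl fun j _ => ?_
    rw [map_sum]
    refine Finset.sum_congr rfl fun l _ => ?_
    rw [map_smul, LinearMap.map_smulₛₗ₂, smul_eq_mul, smul_eq_mul]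
    have h2 : conj ((rt N k)⁻¹ ^ j) = rt N k ^ j := by
      rw [map_pow, map_inv₀, conj_eq_inv (norm_rt hN k), inv_inv]
    rw [h2]
    ring
  have h3 : ∑ k ∈ range N, b (fej T N v (rt N k)) (fej T N v (rt N k)) =
      N * ∑ j ∈ range N, b ((T ^ j) v) ((T ^ j) v) := by
    simp only [h1]
    rw [Finset.sum_comm, Finset.mul_sum]
    refine Finset.sum_congr rfl fun j hj => ?_
    rw [Finset.sum_comm]
    rw [Finset.sum_eq_single j]
    · rw [← Finset.sum_mul, sum_rt hN (Finset.mem_range.1 hj) (Finset.mem_range.1 hj), if_pos rfl]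
    · intro l hl hlj
      rw [← Finset.sum_mul, sum_rt hN (Finset.mem_range.1 hj) (Finset.mem_range.1 hl),
        if_neg (Ne.symm hlj), zero_mul]
    · intro h
      exact absurd hj h
  have h4 := congrArg Complex.re h3
  rw [Complex.re_sum] at h4
  simp only [hb]
  rw [h4, ← Complex.ofReal_natCast, Complex.re_ofReal_mul, Complex.re_sum]

lemma map_pow_apply {T S : V →ₗ[ℂ] V} (h : ∀ v, T (S v) = S (T v)) (j : ℕ) (v : V) :
    S ((T ^ j) v) = (T ^ j) (S v) := by
  induction j generalizing v with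
  | zero => simp
  | succ j ih => rw [pow_succ, Module.End.mul_apply, Module.End.mul_apply, h, ih (T v)]

lemma map_fej {T S : V →ₗ[ℂ] V} (h : ∀ v, T (S v) = S (T v)) (N : ℕ) (v : V) (ω : ℂ) :
    S (fej T N v ω) = fej T N (S v) ω := by
  unfold fej
  rw [map_sum]
  refine Finset.sum_congr rfl fun j _ => ?_
  rw [map_smul, map_pow_apply h]

/-- `(T - ω) v_ω = ω (Tᴺ v - v)` -/
lemma sub_fej {T : V →ₗ[ℂ] V} {N : ℕ} {ω : ℂ} (hω0 : ω ≠ 0) (hω : ω ^ N = 1) (v : V) :
    T (fej T N v ω) - ω • fej T N v ω = ω • ((T ^ N) v - v) := by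
  have h1 : T (fej T N v ω) = ω • ∑ j ∈ range N, ω⁻¹ ^ (j + 1) • (T ^ (j + 1)) v := by
    unfold fej
    rw [map_sum, Finset.smul_sum]
    refine Finset.sum_congr rfl fun j _ => ?_
    rw [map_smul, smul_smul, pow_succ' ω⁻¹ j, ← mul_assoc, mul_inv_cancel₀ hω0, one_mul,
      pow_succ' T j, Module.End.mul_apply]
  rw [h1, ← smul_sub]
  congr 1
  unfold fej
  have h2 := Finset.sum_range_succ' (fun j => ω⁻¹ ^ j • (T ^ j) v) N
  have h3 := Finset.sum_range_succ (fun j => ω⁻¹ ^ j • (T ^ j) v) N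
  rw [h2] at h3
  simp only [pow_zero, one_smul, Module.End.one_apply] at h3
  rw [inv_pow, hω, inv_one, one_smul] at h3
  rw [sub_eq_sub_iff_add_eq_add, h3, add_comm]

lemma HQ.sub_le {Q : V → ℝ} (hQ : HQ Q) (h0 : ∀ v, 0 ≤ Q v) (v w : V) :
    Q (v - w) ≤ 2 * (Q v + Q w) := by
  obtain ⟨b, hb⟩ := hQ
  have h1 : Q (v - w) + Q (v + w) = 2 * (Q v + Q w) := by
    simp only [hb, map_add, map_sub, LinearMap.add_apply, LinearMap.sub_apply, Complex.add_re,
      Complex.sub_re]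
    ring
  have h2 := h0 (v + w)
  linarith

lemma HQ.smul {Q : V → ℝ} (hQ : HQ Q) {c : ℂ} (hc : ‖c‖ = 1) (v : V) : Q (c • v) = Q v := by
  obtain ⟨b, hb⟩ := hQ
  rw [hb, hb, LinearMap.map_smulₛₗ₂, map_smul, smul_eq_mul, smul_eq_mul, ← mul_assoc,
    conj_eq_inv hc, inv_mul_cancel₀ (by intro h; rw [h, norm_zero] at hc; exact zero_ne_one hc),
    one_mul]

lemma inv_pow_apply {Q : V → ℝ} {T : V →ₗ[ℂ] V} (h : ∀ v, Q (T v) = Q v) (j : ℕ) (v : V) :
    Q ((T ^ j) v) = Q v := by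
  induction j with
  | zero => simp
  | succ j ih => rw [pow_succ', Module.End.mul_apply, h, ih]

/-- **One operator.** -/
theorem localise_one {A B : V → ℝ} (hA : HQ A) (hB : HQ B) (hA0 : ∀ v, 0 ≤ A v) (hB0 : ∀ v, 0 ≤ B v)
    (T : V →ₗ[ℂ] V) (hTA : ∀ v, A (T v) = A v) (hTB : ∀ v, B (T v) = B v) {κ : ℝ} (hκ : 0 < κ)
    {v : V} (hv : A v ≤ κ * B v) (hv0 : 0 < B v) {N : ℕ} (hN : N ≠ 0) :
    ∃ ω : ℂ, ‖ω‖ = 1 ∧ 0 < B (fej T N v ω) ∧
      A (fej T N v ω) + N * κ / 4 * B (T (fej T N v ω) - ω • fej T N v ω) ≤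
        2 * κ * B (fej T N v ω) := by
  have hNpos : (0 : ℝ) < N := by exact_mod_cast Nat.pos_of_ne_zero hN
  have hPA := parseval hA T hN v
  have hPB := parseval hB T hN v
  simp only [inv_pow_apply hTA, inv_pow_apply hTB, Finset.sum_const, Finset.card_range,
    nsmul_eq_mul] at hPA hPB
  have hD : ∀ k, B (T (fej T N v (rt N k)) - rt N k • fej T N v (rt N k)) ≤ 4 * B v := by
    intro k
    rw [sub_fej (rt_ne_zero hN k) (rt_pow hN k), hB.smul (norm_rt hN k)]
    refine (hB.sub_le hB0 _ _).trans ?_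
    rw [inv_pow_apply hTB]
    linarith
  by_contra hcon
  push Not at hcon
  -- the indices with `B = 0` do not contribute
  have hall : ∀ k ∈ range N, 2 * κ * B (fej T N v (rt N k)) ≤ A (fej T N v (rt N k)) +
      N * κ / 4 * B (T (fej T N v (rt N k)) - rt N k • fej T N v (rt N k)) := by
    intro k _
    rcases (hB0 (fej T N v (rt N k))).lt_or_eq with h | h
    · exact (hcon _ (norm_rt hN k) h).le
    · rw [← h, mul_zero]
      have h1 := hA0 (fej T N v (rt N k))
      have h2 := hB0 (T (fej T N v (rt N k)) - rt N k • fej T N v (rt N k))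
      have h3 : 0 ≤ N * κ / 4 * B (T (fej T N v (rt N k)) - rt N k • fej T N v (rt N k)) := by
        positivity
      linarith
  have hex : ∃ k ∈ range N, 2 * κ * B (fej T N v (rt N k)) < A (fej T N v (rt N k)) +
      N * κ / 4 * B (T (fej T N v (rt N k)) - rt N k • fej T N v (rt N k)) := by
    by_contra hne
    push Not at hne
    have h0 : ∀ k ∈ range N, B (fej T N v (rt N k)) = 0 := by
      intro k hk
      by_contra h
      have h1 : 0 < B (fej T N v (rt N k)) := lt_of_le_of_ne (hB0 _) (Ne.symm h)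
      exact absurd (hcon _ (norm_rt hN k) h1) (not_lt.2 (hne k hk))
    rw [Finset.sum_eq_zero h0] at hPB
    have : 0 < (N : ℝ) * (N * B v) := by positivity
    linarith
  have h1 := Finset.sum_lt_sum hall hex
  rw [Finset.sum_add_distrib, ← Finset.mul_sum, ← Finset.mul_sum, hPA, hPB] at h1
  have h2 : ∑ k ∈ range N, B (T (fej T N v (rt N k)) - rt N k • fej T N v (rt N k)) ≤
      N * (4 * B v) := by
    refine (Finset.sum_le_sum fun k _ => hD k).trans (le_of_eq ?_)
    simp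
  have h3 : N * κ / 4 * ∑ k ∈ range N,
      B (T (fej T N v (rt N k)) - rt N k • fej T N v (rt N k)) ≤ N * κ / 4 * (N * (4 * B v)) :=
    mul_le_mul_of_nonneg_left h2 (by positivity)
  have h4 : (N : ℝ) * (N * A v) ≤ N * (N * (κ * B v)) := by gcongr
  nlinarith


/-- **Localisation at a character**: finitely many commuting operators. `P` is any property which
is stable under linear combinations and under the operators (for instance: being a test function). -/
theorem localise_fin {m : ℕ} (T : Fin m → V →ₗ[ℂ] V)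
    (hcomm : ∀ i j v, T i (T j v) = T j (T i v)) {A B : V → ℝ} (hA : HQ A) (hB : HQ B)
    (hA0 : ∀ v, 0 ≤ A v) (hB0 : ∀ v, 0 ≤ B v) (hTA : ∀ i v, A (T i v) = A v)
    (hTB : ∀ i v, B (T i v) = B v) {κ : ℝ} (hκ : 0 < κ) {v : V} (hv : A v ≤ κ * B v)
    (hv0 : 0 < B v) {η : ℝ} (hη : 0 < η) :
    ∃ (v' : V) (ω : Fin m → ℂ), (∀ i, ‖ω i‖ = 1) ∧ 0 < B v' ∧
      A v' ≤ 2 ^ m * κ * B v' ∧ ∀ i, B (T i v' - ω i • v') ≤ η * B v' := by
  induction m generalizing A κ v with
  | zero => exact ⟨v, fun i => 1, fun i => i.elim0, hv0, by simpa using hv, fun i => i.elim0⟩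
  | succ m ih =>
    obtain ⟨N, hN⟩ := exists_nat_gt (8 * 2 ^ m / η)
    have hN0 : N ≠ 0 := by
      rintro rfl
      have : 0 < 8 * 2 ^ m / η := by positivity
      push_cast at hN
      linarith
    have hNpos : (0 : ℝ) < N := by exact_mod_cast Nat.pos_of_ne_zero hN0
    obtain ⟨ω, hω, h0, h1⟩ := localise_one hA hB hA0 hB0 (T (Fin.last m)) (hTA _) (hTB _) hκ hv hv0 hN0
    set u := fej (T (Fin.last m)) N v ω with hu
    -- the new form
    have hcl : HQ (fun x => B (T (Fin.last m) x - ω • x)) :=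
      HQ.comp hB (T (Fin.last m) - ω • LinearMap.id)
    set A' : V → ℝ := fun x => A x + N * κ / 4 * B (T (Fin.last m) x - ω • x) with hA'
    have hA'Q : HQ A' := hA.add (hcl.const_mul _)
    obtain ⟨v', τ, hτ, hv'0, hv'A, hv'T⟩ := ih (fun i => T i.castSucc) (fun i j => hcomm _ _)
      (A := A') (κ := 2 * κ) hA'Q
      (fun x => add_nonneg (hA0 x) (mul_nonneg (by positivity) (hB0 _)))
      (fun i x => by
        simp only [hA']
        rw [hTA]
        congr 2
        rw [hcomm, ← map_smul, ← map_sub, hTB]) (fun i => hTB _) (by positivity) (v := u) h1 h0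
    refine ⟨v', Fin.snoc τ ω, fun i => ?_, hv'0, ?_, fun i => ?_⟩
    · refine Fin.lastCases ?_ (fun j => ?_) i
      · simpa using hω
      · simpa using hτ j
    · have h2 : 0 ≤ N * κ / 4 * B (T (Fin.last m) v' - ω • v') :=
        mul_nonneg (by positivity) (hB0 _)
      simp only [hA'] at hv'A
      rw [pow_succ]
      linarith
    · refine Fin.lastCases ?_ (fun j => ?_) i
      · simp only [Fin.snoc_last]
        simp only [hA'] at hv'A
        have h3 := hA0 v'
        have h4 : N * κ / 4 * B (T (Fin.last m) v' - ω • v') ≤ 2 ^ m * (2 * κ) * B v' := by linarith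
        have h5 : N * B (T (Fin.last m) v' - ω • v') ≤ 8 * 2 ^ m * B v' := by
          have h6 : κ * (N * B (T (Fin.last m) v' - ω • v')) ≤ κ * (8 * 2 ^ m * B v') := by
            nlinarith
          exact le_of_mul_le_mul_left h6 hκ
        have h7 : 8 * 2 ^ m ≤ η * N := by
          rw [div_lt_iff₀ hη] at hN
          linarith
        have h8 : N * B (T (Fin.last m) v' - ω • v') ≤ N * (η * B v') := by
          calc N * B (T (Fin.last m) v' - ω • v') ≤ 8 * 2 ^ m * B v' := h5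
            _ ≤ (η * N) * B v' := by gcongr
            _ = _ := by ring
        exact le_of_mul_le_mul_left h8 hNpos
      · simpa using hv'T j

set_option linter.unusedSectionVars false

/-! ### Complexification of a real vector space with symmetric bilinear forms -/

/-- pairs of vectors of a real vector space, as a complex vector space -/
def CC (V : Type*) : Type _ := V × V

section
variable {W : Type*} [AddCommGroup W] [Module ℝ W]

instance : AddCommGroup (CC W) := inferInstanceAs (AddCommGroup (W × W))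

lemma CC.ext {v w : CC W} (h1 : v.1 = w.1) (h2 : v.2 = w.2) : v = w := Prod.ext h1 h2

@[simp] lemma CC.add_fst (v w : CC W) : (v + w).1 = v.1 + w.1 := rfl
@[simp] lemma CC.add_snd (v w : CC W) : (v + w).2 = v.2 + w.2 := rfl
@[simp] lemma CC.sub_fst (v w : CC W) : (v - w).1 = v.1 - w.1 := rfl
@[simp] lemma CC.sub_snd (v w : CC W) : (v - w).2 = v.2 - w.2 := rfl
@[simp] lemma CC.zero_fst : (0 : CC W).1 = 0 := rfl
@[simp] lemma CC.zero_snd : (0 : CC W).2 = 0 := rfl

instance : SMul ℂ (CC W) := ⟨fun c v => (c.re • v.1 - c.im • v.2, c.im • v.1 + c.re • v.2)⟩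

@[simp] lemma CC.smul_fst (c : ℂ) (v : CC W) : (c • v).1 = c.re • v.1 - c.im • v.2 := rfl
@[simp] lemma CC.smul_snd (c : ℂ) (v : CC W) : (c • v).2 = c.im • v.1 + c.re • v.2 := rfl

instance : Module ℂ (CC W) where
  one_smul v := by apply CC.ext <;> simp
  mul_smul a b v := by
    apply CC.ext
    · simp only [CC.smul_fst, CC.smul_snd, Complex.mul_re, Complex.mul_im]
      module
    · simp only [CC.smul_fst, CC.smul_snd, Complex.mul_re, Complex.mul_im]
      module
  smul_zero a := by apply CC.ext <;> simp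
  smul_add a v w := by
    apply CC.ext
    · simp only [CC.smul_fst, CC.add_fst, CC.add_snd]; module
    · simp only [CC.smul_snd, CC.add_fst, CC.add_snd]; module
  add_smul a b v := by
    apply CC.ext
    · simp only [CC.smul_fst, CC.add_fst, Complex.add_re, Complex.add_im]; module
    · simp only [CC.smul_snd, CC.add_snd, Complex.add_re, Complex.add_im]; module
  zero_smul v := by apply CC.ext <;> simp

/-- complexification of a linear map -/
def ccMap (T : W →ₗ[ℝ] W) : CC W →ₗ[ℂ] CC W where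
  toFun v := (T v.1, T v.2)
  map_add' v w := by
    apply CC.ext
    · exact map_add T v.1 w.1
    · exact map_add T v.2 w.2
  map_smul' c v := by
    apply CC.ext
    · change T (c.re • v.1 - c.im • v.2) = c.re • T v.1 - c.im • T v.2
      simp
    · change T (c.im • v.1 + c.re • v.2) = c.im • T v.1 + c.re • T v.2
      simp

@[simp] lemma ccMap_fst (T : W →ₗ[ℝ] W) (v : CC W) : (ccMap T v).1 = T v.1 := rfl
@[simp] lemma ccMap_snd (T : W →ₗ[ℝ] W) (v : CC W) : (ccMap T v).2 = T v.2 := rfl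

/-- The Hermitian extension of a real symmetric form. -/
def ccForm (B : W →ₗ[ℝ] W →ₗ[ℝ] ℝ) : CC W →ₗ⋆[ℂ] CC W →ₗ[ℂ] ℂ :=
  LinearMap.mk₂'ₛₗ _ _
    (fun v w => ((B v.1 w.1 + B v.2 w.2 : ℝ) : ℂ) + Complex.I * ((B v.1 w.2 - B v.2 w.1 : ℝ) : ℂ))
    (fun v v' w => by simp; ring)
    (fun c v w => by
      apply Complex.ext
      · simp
        ring
      · simp
        ring)
    (fun v w w' => by simp; ring)
    (fun c v w => by
      apply Complex.ext
      · simp
        ring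
      · simp
        ring)

lemma hq_cc {B : W →ₗ[ℝ] W →ₗ[ℝ] ℝ} : HQ (fun v : CC W => B v.1 v.1 + B v.2 v.2) :=
  ⟨ccForm B, fun v => by simp [ccForm]⟩

/-- **Localisation at a character, real version.** `A`, `B` are nonnegative symmetric forms on the
real vector space `W`, invariant under the commuting operators `T i`. -/
theorem localise_real {m : ℕ} (T : Fin m → W →ₗ[ℝ] W)
    (hcomm : ∀ i j v, T i (T j v) = T j (T i v)) (A B : W →ₗ[ℝ] W →ₗ[ℝ] ℝ)
    (hA0 : ∀ v, 0 ≤ A v v) (hB0 : ∀ v, 0 ≤ B v v) (hTA : ∀ i v, A (T i v) (T i v) = A v v)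
    (hTB : ∀ i v, B (T i v) (T i v) = B v v) {κ : ℝ} (hκ : 0 < κ) {v : W}
    (hv : A v v ≤ κ * B v v) (hv0 : 0 < B v v) {η : ℝ} (hη : 0 < η) :
    ∃ (v₁ v₂ : W) (a b : Fin m → ℝ), (∀ i, a i ^ 2 + b i ^ 2 = 1) ∧ 0 < B v₁ v₁ + B v₂ v₂ ∧
      A v₁ v₁ + A v₂ v₂ ≤ 2 ^ m * κ * (B v₁ v₁ + B v₂ v₂) ∧
      ∀ i, B (T i v₁ - (a i • v₁ - b i • v₂)) (T i v₁ - (a i • v₁ - b i • v₂)) +
        B (T i v₂ - (b i • v₁ + a i • v₂)) (T i v₂ - (b i • v₁ + a i • v₂)) ≤
        η * (B v₁ v₁ + B v₂ v₂) := by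
  obtain ⟨v', ω, hω, h0, h1, h2⟩ := localise_fin (V := CC W) (fun i => ccMap (T i))
    (fun i j x => by apply CC.ext <;> simp [hcomm i j])
    (A := fun v => A v.1 v.1 + A v.2 v.2) (B := fun v => B v.1 v.1 + B v.2 v.2) hq_cc hq_cc
    (fun x => add_nonneg (hA0 _) (hA0 _)) (fun x => add_nonneg (hB0 _) (hB0 _))
    (fun i x => by simp [hTA]) (fun i x => by simp [hTB]) hκ (v := ((v, 0) : W × W))
    (by simpa using hv) (by simpa using hv0) hη
  refine ⟨v'.1, v'.2, fun i => (ω i).re, fun i => (ω i).im, fun i => ?_, h0, h1, fun i => ?_⟩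
  · have h3 := hω i
    have h4 : ‖ω i‖ ^ 2 = 1 := by rw [h3, one_pow]
    rw [← Complex.normSq_eq_norm_sq, Complex.normSq_apply] at h4
    linarith [h4, sq (ω i).re, sq (ω i).im]
  · simpa using h2 i

end

end Vale.Agent.P284.H275
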