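import Vale.Agent.P284.H894.V.V13
import Vale.Agent.P284.H275.Fejer

/-!
# P284 (helper275), module SC: translations of test functions

`tr c f γ a z = f (c⁻¹ γ) a z`: the deck transformation `c` acts on functions on the covering (the
pieces `(γ, a)` are permuted by left multiplication).
-/

open scoped Manifold ContDiff Topology Pointwise ComplexConjugate
open Filter Set Metric MeasureTheory

set_option linter.unusedSectionVars false

noncomputable section

namespace Vale.Agent.P284.H275

open Vale.Agent.P272.K Vale.Agent.P284.H248 Vale.Agent.P284.H894 Vale.Agent.P284.H894.G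
open Vale.Agent.P284.H894.V Vale.Agent.P284.H894.V.Asm

variable {n : ℕ} {Γ : Type} [Group Γ] {C : Coc n Γ}

/-- translation by `c` of a function on the covering -/
def tr {A : Type*} (c : Γ) (f : Γ → A) (γ : Γ) : A := f (c⁻¹ * γ)

@[simp] lemma tr_apply {A : Type*} (c : Γ) (f : Γ → A) (γ : Γ) : tr c f γ = f (c⁻¹ * γ) := rfl

lemma tr_mul {A : Type*} (c d : Γ) (f : Γ → A) : tr (c * d) f = tr c (tr d f) := by
  funext γ
  simp [mul_assoc]

lemma tr_one {A : Type*} (f : Γ → A) : tr 1 f = f := by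
  funext γ
  simp

lemma isTst_tr (c : Γ) {f : Γ → C.I → Cm n → ℝ} (hf : IsTst C f) : IsTst C (tr c f) := by
  refine ⟨fun γ a z hz => hf.smooth _ a z hz, fun γ a b z hz => ?_, ?_,
    fun γ a z hz => hf.out _ a z hz⟩
  · simp only [tr_apply, ← mul_assoc]
    exact hf.compat (c⁻¹ * γ) a b z hz
  · refine (hf.fin.image (fun γ => c * γ)).subset ?_
    rintro γ ⟨a, z, hz, h⟩
    exact ⟨c⁻¹ * γ, ⟨a, z, hz, h⟩, by simp⟩

/-- translation, as a linear map on the test functions -/
def trL (C : Coc n Γ) (c : Γ) : tst C →ₗ[ℝ] tst C where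
  toFun f := ⟨tr c f.1, isTst_tr c f.2⟩
  map_add' _ _ := rfl
  map_smul' _ _ := rfl

@[simp] lemma trL_coe (c : Γ) (f : tst C) : (trL C c f : Γ → C.I → Cm n → ℝ) = tr c f.1 := rfl

lemma trL_comm {c d : Γ} (h : c * d = d * c) (f : tst C) :
    trL C c (trL C d f) = trL C d (trL C c f) := by
  apply Subtype.ext
  simp only [trL_coe]
  rw [← tr_mul, ← tr_mul, h]

/-- the integral of a translated function -/
lemma Int_tr (P : PU C) (K : KM C) (c : Γ) (G : Γ → C.I → Cm n → ℝ) :
    Int P K (tr c G) = Int P K G := by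
  unfold V.Int
  exact (Equiv.mulLeft c⁻¹).tsum_eq (fun γ => ∑ a, ∫ z in C.V a, P.χ a a z * G γ a z *
    vol (K.w a) z)

/-- every expression which is computed piece by piece commutes with translations -/
lemma Int_tr' (P : PU C) (K : KM C) (c : Γ) (G : Γ → C.I → Cm n → ℝ) :
    Int P K (fun γ a z => G (c⁻¹ * γ) a z) = Int P K G := Int_tr P K c G

lemma Lap_tr (K : KM C) (c : Γ) (f : Γ → C.I → Cm n → ℝ) : Lap K (tr c f) = tr c (Lap K f) := rfl

lemma Gr_tr (K : KM C) (c : Γ) (f h : Γ → C.I → Cm n → ℝ) :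
    Gr K (tr c f) (tr c h) = tr c (Gr K f h) := rfl

lemma Hh_tr (K : KM C) (c : Γ) (f h : Γ → C.I → Cm n → ℝ) :
    Hh K (tr c f) (tr c h) = tr c (Hh K f h) := rfl

end Vale.Agent.P284.H275
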