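import Vale.Agent.P284.H837.BrS
import Vale.Agent.P284.H553.Seg2

/-!
# P284 (helper275), T1': local boundedness of the Segre transform (`M5Stmt`)

Along the slice `u ↦ z + ∑ u_i ξ_i` the norm of the form on `ξ` is `‖γ‖² |det|^{2m}` for a normal form;
so its Segre transform is the one of a fixed analytic function, hence locally bounded.
-/

open scoped Manifold ContDiff Topology ComplexOrder
open Filter Set Metric

noncomputable section

namespace Vale.Agent.P284.H275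

open Vale.Agent.P272.K Vale.Agent.P272.KOD Vale.Agent.P284.H573 Vale.Agent.P284.H553
  Vale.Agent.P284.H894 Vale.Agent.P284.H894.G Vale.Agent.P284.H553.LB Vale.Agent.P284.H837

section slice
variable {n R : ℕ}

/-- the slice spanned by `ξ` -/
def sli (ξ : Fin R → Cm n) : Cm R →L[ℂ] Cm n :=
  LinearMap.toContinuousLinearMap
    { toFun := fun u => ∑ i, u i • ξ i
      map_add' := fun u v => by simp [add_smul, Finset.sum_add_distrib]
      map_smul' := fun c u => by simp [mul_smul, Finset.smul_sum] }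

theorem sli_single (ξ : Fin R → Cm n) (i : Fin R) : sli ξ (Pi.single i 1) = ξ i := by
  show ∑ k, (Pi.single i (1 : ℂ) : Cm R) k • ξ k = ξ i
  rw [Finset.sum_eq_single i]
  · simp
  · intro b _ hb
    rw [Pi.single_eq_of_ne hb, zero_smul]
  · simp

theorem fderiv_sli {T : Type} [NormedAddCommGroup T] [NormedSpace ℂ T] {f : Cm n → T}
    (ξ : Fin R → Cm n) (z : Cm n) (u : Cm R) (hf : DifferentiableAt ℂ f (z + sli ξ u)) :
    fderiv ℂ (fun u => f (z + sli ξ u)) u = (fderiv ℂ f (z + sli ξ u)).comp (sli ξ) := by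
  have h1 : HasFDerivAt (fun u => z + sli ξ u) (sli ξ) u := (sli ξ).hasFDerivAt.const_add z
  exact (HasFDerivAt.comp u (g := f) hf.hasFDerivAt h1).fderiv

theorem det_sli {b : Cm n → Cm R} (ξ : Fin R → Cm n) (z : Cm n) (u : Cm R)
    (hb : DifferentiableAt ℂ b (z + sli ξ u)) :
    (fderiv ℂ (fun u => b (z + sli ξ u)) u).det = (DM b (z + sli ξ u) ξ).det := by
  rw [← Jm_det]
  congr 1
  ext i j
  simp only [Jm, Matrix.of_apply]
  rw [fderiv_sli ξ z u hb, ContinuousLinearMap.comp_apply, sli_single]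

end slice

section
variable {n R m : ℕ} {X E : Type} [TopologicalSpace X] [ChartedSpace (Cm n) X]
  [IsManifold 𝓘(ℂ, Cm n) ω X] [TopologicalSpace E] {H : Type} [NormedAddCommGroup H]
  [InnerProductSpace ℂ H] {p : E → X} {v : E → Chart n X → (Fin R → Cm n) → H}

omit [IsManifold 𝓘(ℂ, Cm n) ω X] in
/-- the norm of the form in the chart `e` -/
theorem norm_loc (hp : IsCoveringMap p) (hs : Function.Surjective p) (hv : HForm n R m p H v)
    {x : X} {e : Chart n X} (hx : At e x) (ξ : Fin R → Cm n) :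
    ∃ Φ : Cm n → H, AnalyticAt ℂ Φ (e x) ∧ ∀ᶠ x' in 𝓝 x, ∀ y, p y = x' → ‖v y e ξ‖ = ‖Φ (e x')‖ := by
  obtain ⟨y₁, rfl⟩ := hs x
  obtain ⟨F, hF, hvF⟩ := hv.hol y₁ e hx
  refine ⟨fun z => F (z, ξ), (hF ξ).comp (f := fun z => (z, ξ)) (by fun_prop), ?_⟩
  have h1 : ∀ᶠ y' in 𝓝 y₁, v y' e ξ = F (e (p y'), ξ) ∧ At e (p y') := by
    filter_upwards [hvF, (hp.isLocalHomeomorph.continuous.continuousAt (x := y₁)).eventually
      (e.open_source.mem_nhds hx.2)] with y' h1 h2
    exact ⟨h1 ξ, hx.1, h2⟩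
  have h2 := hp.isLocalHomeomorph.isOpenMap.image_mem_nhds h1
  filter_upwards [h2] with x' hx' y hy
  obtain ⟨y', ⟨h3, h4⟩, h5⟩ := hx'
  rw [hv.inv y y' e (by rw [hy, ← h5]; exact h4) (by rw [hy, h5]) ξ, h3, h5]

/-- the norm of the form near a point with a normal form, in another chart -/
theorem norm_nf (hp : IsCoveringMap p) (hv : HForm n R m p H v) {y : E} {e e₀ : Chart n X}
    {b : Cm n → Cm R} {γ : Cm R → H} (h : IsNF m p v y e₀ b γ) (he : At e (p y))
    (ξ : Fin R → Cm n) :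
    ∀ᶠ z in 𝓝 (e (p y)), ∃ y' : E, p y' = e.symm z ∧ v y' e ξ =
      (DM (fun z => b (e₀ (e.symm z))) z ξ).det ^ m • γ (b (e₀ (e.symm z))) := by
  have hT := transition_differentiableAt he h.mem
  have hTa : AnalyticAt ℂ (fun z => e₀ (e.symm z)) (e (p y)) := (transition he h.mem).analyticAt
  have hTe : (fun z => e₀ (e.symm z)) (e (p y)) = e₀ (p y) := by
    simp only
    rw [he.left_inv]
  have hb : ∀ᶠ z in 𝓝 (e (p y)), AnalyticAt ℂ b (e₀ (e.symm z)) := by
    have h1 : ∀ᶠ w in 𝓝 (e₀ (p y)), AnalyticAt ℂ b w := h.ban.eventually_analyticAt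
    exact hTa.continuousAt.eventually (p := fun w => AnalyticAt ℂ b w) (by rw [hTe]; exact h1)
  have h1 : ∀ᶠ x' in 𝓝 (p y), ∃ y', p y' = x' ∧ ∀ ξ : Fin R → Cm n, v y' e₀ ξ =
      (Matrix.of fun i j => fderiv ℂ b (e₀ (p y')) (ξ j) i).det ^ m • γ (b (e₀ (p y'))) := by
    filter_upwards [hp.isLocalHomeomorph.isOpenMap.image_mem_nhds h.nf] with x' hx'
    obtain ⟨y', h3, h5⟩ := hx'
    exact ⟨y', h5, h3⟩
  have h2 : ∀ᶠ z in 𝓝 (e (p y)), ∃ y', p y' = e.symm z ∧ ∀ ξ : Fin R → Cm n, v y' e₀ ξ =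
      (Matrix.of fun i j => fderiv ℂ b (e₀ (p y')) (ξ j) i).det ^ m • γ (b (e₀ (p y'))) := by
    have h3 := e.continuousAt_symm he.mem_target
    rw [ContinuousAt, he.left_inv] at h3
    exact h3.eventually h1
  filter_upwards [h2, hb, he.nhds_at h.mem, hTa.eventually_analyticAt] with z hz1 hz2 hz3 hz4
  obtain ⟨y', hy', hz1⟩ := hz1
  refine ⟨y', hy', ?_⟩
  rw [hv.change y' e e₀ (by rw [hy']; exact hz3.2.1) (by rw [hy']; exact hz3.2.2) ξ, hz1, hy',
    e.right_inv hz3.1]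
  congr 3
  ext i j
  simp only [Matrix.of_apply]
  rw [show fderiv ℂ (fun z => b (e₀ (e.symm z))) z =
      (fderiv ℂ b (e₀ (e.symm z))).comp (fderiv ℂ (fun z => e₀ (e.symm z)) z) from
    (HasFDerivAt.comp z (g := b) (f := fun z => e₀ (e.symm z)) hz2.differentiableAt.hasFDerivAt
      hz4.differentiableAt.hasFDerivAt).fderiv]
  rfl

end

/-- **(M5)** -/
theorem m5 : M5Stmt := by
  intro n R q m X E Γ _ _ _ _ _ _ H _ _ _ p v F c hD x e hx ξ
  have hp := hD.gal.cov
  obtain ⟨Φ, hΦ, hn⟩ := norm_loc hp hD.gal.surj hD.hv hx ξ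
  set G : Cm n → ℝ := fun z => ‖Φ z‖ ^ 2 *
    (gm (Sum.elim (fun _ : Unit => Φ z) fun i => fderiv ℂ Φ z (ξ i))).det.re with hG
  have hGc : ContinuousAt G (e x) := by
    have h1 : ContinuousAt Φ (e x) := hΦ.continuousAt
    have h2 : ContinuousAt (fderiv ℂ Φ) (e x) := hΦ.fderiv.continuousAt
    have h3 : ContinuousAt (fun z => (gm (Sum.elim (fun _ : Unit => Φ z)
        fun i => fderiv ℂ Φ z (ξ i))).det) (e x) := by
      refine (continuous_id.matrix_det (A := fun M : Matrix (Unit ⊕ Fin R) (Unit ⊕ Fin R) ℂ => M)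
        |>.continuousAt).comp ?_
      refine continuousAt_pi.2 fun i => continuousAt_pi.2 fun j => ?_
      have h4 : ∀ i : Unit ⊕ Fin R, ContinuousAt (fun z => Sum.elim (fun _ : Unit => Φ z)
          (fun i => fderiv ℂ Φ z (ξ i)) i) (e x) := by
        rintro (i | i)
        · exact h1
        · exact h2.clm_apply continuousAt_const
      exact ContinuousAt.inner (𝕜 := ℂ) (h4 i) (h4 j)
    exact (h1.norm.pow 2).mul (Complex.continuous_re.continuousAt.comp h3)
  have hGb : ∀ᶠ z in 𝓝 (e x), G z < G (e x) + 1 := hGc.eventually_lt continuousAt_const (by simp)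
  refine ⟨G (e x) + 1, ?_⟩
  have hsrc : ∀ᶠ x' in 𝓝 x, At e x' := by
    filter_upwards [e.open_source.mem_nhds hx.2] with x' hx'
    exact ⟨hx.1, hx'⟩
  filter_upwards [hsrc, (e.continuousAt hx.2).eventually hGb,
    (e.continuousAt hx.2).eventually hΦ.eventually_analyticAt, eventually_eventually_nhds.2 hn]
    with x' hx' hb1 hb2 hn' y e₀ b γ hy hNF
  subst hy
  set z := e (p y) with hz
  set b' : Cm n → Cm R := fun z => b (e₀ (e.symm z)) with hb'
  have hb'z : b' z = b (e₀ (p y)) := by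
    rw [hb', hz]
    simp only
    rw [hx'.left_inv]
  -- analyticity of `b'`
  have hTa : AnalyticAt ℂ (fun z => e₀ (e.symm z)) z := (transition hx' hNF.mem).analyticAt
  have hTe : (fun z => e₀ (e.symm z)) z = e₀ (p y) := by
    simp only
    rw [hz, hx'.left_inv]
  have hb'a : AnalyticAt ℂ b' z :=
    AnalyticAt.fun_comp (g := b) (f := fun z => e₀ (e.symm z))
      (by rw [show e₀ (e.symm z) = e₀ (p y) from hTe]; exact hNF.ban) hTa
  -- the norms near `z`
  have hloc : ∀ᶠ w in 𝓝 z, ‖γ (b' w)‖ ^ 2 * (‖(DM b' w ξ).det‖ ^ 2) ^ m = ‖Φ w‖ ^ 2 := by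
    have h1 : ∀ᶠ w in 𝓝 z, ∀ y', p y' = e.symm w → ‖v y' e ξ‖ = ‖Φ (e (e.symm w))‖ := by
      have h3 := e.continuousAt_symm hx'.mem_target
      rw [ContinuousAt, hx'.left_inv] at h3
      exact h3.eventually hn'
    filter_upwards [h1, norm_nf hp hD.hv hNF hx' ξ, hx'.nhds_target] with w hw1 hw2 hw3
    obtain ⟨y', hy', h2⟩ := hw2
    have h3 := hw1 y' hy'
    rw [e.right_inv hw3, h2, norm_smul, norm_pow] at h3
    rw [← h3]
    ring
  -- the slice
  set f : Cm R → Cm R := fun u => b' (z + sli ξ u) with hf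
  set V : Cm R → H := fun u => Φ (z + sli ξ u) with hV
  have hline : ContinuousAt (fun u : Cm R => z + sli ξ u) 0 := by fun_prop
  have hl0 : (fun u : Cm R => z + sli ξ u) 0 = z := by simp
  have hla : AnalyticAt ℂ (fun u : Cm R => z + sli ξ u) 0 :=
    analyticAt_const.add ((sli ξ).analyticAt _)
  have hfa : AnalyticAt ℂ f 0 :=
    AnalyticAt.fun_comp (g := b') (f := fun u : Cm R => z + sli ξ u)
      (by rw [show z + sli ξ 0 = z from hl0]; exact hb'a) hla
  have hVa : AnalyticAt ℂ V 0 :=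
    AnalyticAt.fun_comp (g := Φ) (f := fun u : Cm R => z + sli ξ u)
      (by rw [show z + sli ξ 0 = z from hl0]; exact hb2) hla
  have hf0 : f 0 = b (e₀ (p y)) := by
    rw [hf]
    simp only
    rw [show z + sli ξ 0 = z by simp, hb'z]
  have hrel : ∀ᶠ u in 𝓝 (0 : Cm R), ‖γ (f u)‖ ^ 2 * (‖(fderiv ℂ f u).det‖ ^ 2) ^ m = ‖V u‖ ^ 2 := by
    have h1 : ∀ᶠ w in 𝓝 z, (‖γ (b' w)‖ ^ 2 * (‖(DM b' w ξ).det‖ ^ 2) ^ m = ‖Φ w‖ ^ 2) ∧
        AnalyticAt ℂ b' w := hloc.and hb'a.eventually_analyticAt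
    have h2 := hline.eventually (p := fun w => (‖γ (b' w)‖ ^ 2 * (‖(DM b' w ξ).det‖ ^ 2) ^ m =
      ‖Φ w‖ ^ 2) ∧ AnalyticAt ℂ b' w) (by rw [hl0]; exact h1)
    filter_upwards [h2] with u hu
    rw [hf, det_sli ξ z u hu.2.differentiableAt]
    exact hu.1
  have key := grd_trans hfa (by rw [hf0]; exact hNF.γan) hVa hrel
  have hdet : (fderiv ℂ f 0).det = (DM b' z ξ).det := by
    rw [hf, det_sli ξ z 0 (by simpa using hb'a.differentiableAt)]
    simp
  have hfr : frame V 0 = Sum.elim (fun _ : Unit => Φ z) fun i => fderiv ℂ Φ z (ξ i) := by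
    funext i
    rcases i with i | i
    · show V 0 = Φ z
      rw [hV]
      simp
    · show fderiv ℂ V 0 (Pi.single i 1) = fderiv ℂ Φ z (ξ i)
      rw [hV, fderiv_sli ξ z 0 (by simpa using hb2.differentiableAt),
        ContinuousLinearMap.comp_apply, sli_single]
      simp
  rw [hf0, hdet, hfr] at key
  have h0 := hloc.self_of_nhds
  rw [hb'z] at h0
  refine le_trans (le_of_eq ?_) hb1.le
  show _ = ‖Φ z‖ ^ 2 * _
  rw [key, ← h0]
  ring

end Vale.Agent.P284.H275
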