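import Vale.Agent.P284.H402.A.Spec

/-!
# P284 (helper275), module SC: the abstract lemma A1 with commuting isometries

`A1rStmt` is `H402.A.A1Stmt` with the weaker hypothesis
`H f h ^ 2 ≤ B * (ip f f + ip (L f) (L f)) * ip h h`. It implies the version `A1cStmt` with finitely many
isometries `T i` commuting with `L`: if `∑ ip ((T i - 1) f₀) ((T i - 1) f₀) ≤ ε ip f₀ f₀` for the Følner
function `f₀`, the selected `v` satisfies in addition `∑ en ((T i - 1) v) ((T i - 1) v) ≤ c₀ ε en v v`.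
-/

open Filter

noncomputable section

namespace Vale.Agent.P284.H275

/-- **A1, relaxed** (`H402.A.A1Stmt` with a weaker hypothesis on `H`). -/
def A1rStmt : Prop :=
  ∃ c₀ : ℝ, 0 < c₀ ∧ ∀ (V : Type) [AddCommGroup V] [Module ℝ V] (ip en H : V →ₗ[ℝ] V →ₗ[ℝ] ℝ)
    (L : V →ₗ[ℝ] V),
    (∀ f h, ip f h = ip h f) → (∀ f, 0 ≤ ip f f) → (∀ f h, en f h = en h f) → (∀ f, 0 ≤ en f f) →
    (∀ f h, H f h = H h f) → (∀ f, 0 ≤ H f f) →
    (∀ f h, ip (L f) h = -en f h) → (∀ f, 0 ≤ -H (L f) f) →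
    (∃ B : ℝ, ∀ f h, H f h ^ 2 ≤ B * (ip f f + ip (L f) (L f)) * ip h h) →
    (∀ l : ℝ, 0 < l → ∀ f, ∀ δ : ℝ, 0 < δ → ∃ v, ip (l • v - L v - f) (l • v - L v - f) < δ) →
    ∀ (K : ℕ) (f₀ : V) (ε : ℝ), 0 < ε → ε ≤ 1 → 0 < ip f₀ f₀ → en f₀ f₀ ≤ ε * ip f₀ f₀ →
      H f₀ f₀ ≤ ε * ip f₀ f₀ →
      (∀ b, ip b b ≤ 2 * ip f₀ f₀ → en b b ≤ 4 / 2 ^ K * ip f₀ f₀ → ip b f₀ ≤ ip f₀ f₀ / 40) →
      ∃ (v : V) (s : ℝ), 1 ≤ s ∧ s ≤ 2 ^ K ∧ 0 < en v v ∧
        ip v v + s ^ 2 * ip (L v) (L v) + ε⁻¹ * (H v v + s * -H (L v) v) ≤ c₀ * (s * en v v)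

/-- **A1 with commuting isometries.** -/
def A1cStmt : Prop :=
  ∃ c₀ : ℝ, 0 < c₀ ∧ ∀ (V : Type) [AddCommGroup V] [Module ℝ V] (ip en H : V →ₗ[ℝ] V →ₗ[ℝ] ℝ)
    (L : V →ₗ[ℝ] V) (m : ℕ) (T : Fin m → V →ₗ[ℝ] V),
    (∀ f h, ip f h = ip h f) → (∀ f, 0 ≤ ip f f) → (∀ f h, en f h = en h f) → (∀ f, 0 ≤ en f f) →
    (∀ f h, H f h = H h f) → (∀ f, 0 ≤ H f f) →
    (∀ f h, ip (L f) h = -en f h) → (∀ f, 0 ≤ -H (L f) f) →
    (∃ B : ℝ, ∀ f h, H f h ^ 2 ≤ B * (ip f f + ip (L f) (L f)) * ip h h) →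
    (∀ l : ℝ, 0 < l → ∀ f, ∀ δ : ℝ, 0 < δ → ∃ v, ip (l • v - L v - f) (l • v - L v - f) < δ) →
    (∀ i f, T i (L f) = L (T i f)) → (∀ i f, ip (T i f) (T i f) = ip f f) →
    ∀ (K : ℕ) (f₀ : V) (ε : ℝ), 0 < ε → ε ≤ 1 → 0 < ip f₀ f₀ → en f₀ f₀ ≤ ε * ip f₀ f₀ →
      H f₀ f₀ + ∑ i, ip (T i f₀ - f₀) (T i f₀ - f₀) ≤ ε * ip f₀ f₀ →
      (∀ b, ip b b ≤ 2 * ip f₀ f₀ → en b b ≤ 4 / 2 ^ K * ip f₀ f₀ → ip b f₀ ≤ ip f₀ f₀ / 40) →
      ∃ (v : V) (s : ℝ), 1 ≤ s ∧ s ≤ 2 ^ K ∧ 0 < en v v ∧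
        ip v v + s ^ 2 * ip (L v) (L v) + ε⁻¹ * (H v v + s * -H (L v) v +
          s * ∑ i, en (T i v - v) (T i v - v)) ≤ c₀ * (s * en v v)

section
variable {V : Type} [AddCommGroup V] [Module ℝ V]

lemma cs {ip : V →ₗ[ℝ] V →ₗ[ℝ] ℝ} (hs : ∀ f h, ip f h = ip h f) (h0 : ∀ f, 0 ≤ ip f f) (f h : V) :
    ip f h ^ 2 ≤ ip f f * ip h h := by
  have key : ∀ t : ℝ, 0 ≤ ip f f + 2 * t * ip f h + t ^ 2 * ip h h := by
    intro t
    have h1 := h0 (f + t • h)
    simp only [map_add, map_smul, LinearMap.add_apply, LinearMap.smul_apply, smul_eq_mul] at h1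
    rw [hs h f] at h1
    nlinarith
  rcases (h0 h).lt_or_eq with hh | hh
  · have h1 := key (-(ip f h / ip h h))
    have h2 : ip f f + 2 * -(ip f h / ip h h) * ip f h + (-(ip f h / ip h h)) ^ 2 * ip h h =
        ip f f - ip f h ^ 2 / ip h h := by
      field_simp
      ring
    rw [h2] at h1
    have h3 : ip f h ^ 2 / ip h h ≤ ip f f := by linarith
    rwa [div_le_iff₀ hh] at h3
  · have h1 : ip f h = 0 := by
      by_contra hne
      have h2 := key (-(ip f f + 1) / (2 * ip f h))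
      rw [← hh] at h2
      have h3 : ip f f + 2 * (-(ip f f + 1) / (2 * ip f h)) * ip f h +
          (-(ip f f + 1) / (2 * ip f h)) ^ 2 * 0 = -1 := by
        field_simp
        ring
      rw [h3] at h2
      linarith
    rw [h1, ← hh]
    simp

theorem a1c_of (h : A1rStmt) : A1cStmt := by
  obtain ⟨c₀, hc₀, h⟩ := h
  refine ⟨c₀, hc₀, ?_⟩
  intro V _ _ ip en H L m T hips hip0 hens hen0 hHs hH0 hL hd hB hres hTL hT K f₀ ε hε hε1 hf0 hfe
    hfH hesc
  -- polarisation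
  have hTp : ∀ i f g, ip (T i f) (T i g) = ip f g := by
    intro i f g
    have h1 := hT i (f + g)
    simp only [map_add, LinearMap.add_apply] at h1
    rw [hT, hT, hips (T i g) (T i f), hips g f] at h1
    linarith
  set D : Fin m → V →ₗ[ℝ] V := fun i => T i - LinearMap.id with hD
  have hDa : ∀ i f, D i f = T i f - f := fun i f => rfl
  have hDL : ∀ i f, D i (L f) = L (D i f) := by
    intro i f
    rw [hDa, hDa, hTL, map_sub]
  set G : V →ₗ[ℝ] V →ₗ[ℝ] ℝ := ∑ i, (ip.compl₂ (D i)).comp (D i) with hG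
  have hGa : ∀ f g, G f g = ∑ i, ip (D i f) (D i g) := by
    intro f g
    simp [hG, LinearMap.sum_apply]
  have hGb : ∀ f g, G f g ^ 2 ≤ 16 * m ^ 2 * ip f f * ip g g := by
    intro f g
    have h1 : ∀ i, ip (D i f) (D i f) ≤ 4 * ip f f := by
      intro i
      have h2 : ip (D i f) (D i f) + ip (T i f + f) (T i f + f) = 4 * ip f f := by
        rw [hDa]
        simp only [map_add, map_sub, LinearMap.add_apply, LinearMap.sub_apply]
        rw [hT]
        ring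
      have h3 := hip0 (T i f + f)
      linarith
    have h1' : ∀ i, ip (D i g) (D i g) ≤ 4 * ip g g := by
      intro i
      have h2 : ip (D i g) (D i g) + ip (T i g + g) (T i g + g) = 4 * ip g g := by
        rw [hDa]
        simp only [map_add, map_sub, LinearMap.add_apply, LinearMap.sub_apply]
        rw [hT]
        ring
      have h3 := hip0 (T i g + g)
      linarith
    have h4 : ∀ i, |ip (D i f) (D i g)| ≤ 4 * Real.sqrt (ip f f * ip g g) := by
      intro i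
      have h5 := cs hips hip0 (D i f) (D i g)
      have h6 : ip (D i f) (D i f) * ip (D i g) (D i g) ≤ (4 * ip f f) * (4 * ip g g) :=
        mul_le_mul (h1 i) (h1' i) (hip0 _) (by have := hip0 f; positivity)
      rw [← Real.sqrt_sq_eq_abs]
      calc Real.sqrt (ip (D i f) (D i g) ^ 2) ≤ Real.sqrt (4 ^ 2 * (ip f f * ip g g)) :=
            Real.sqrt_le_sqrt (by nlinarith)
        _ = _ := by
            rw [Real.sqrt_mul (by norm_num), Real.sqrt_sq (by norm_num)]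
    have h7 : |G f g| ≤ m * (4 * Real.sqrt (ip f f * ip g g)) := by
      rw [hGa]
      refine (Finset.abs_sum_le_sum_abs _ _).trans ((Finset.sum_le_sum fun i _ => h4 i).trans ?_)
      simp
    have h8 : 0 ≤ ip f f * ip g g := mul_nonneg (hip0 _) (hip0 _)
    calc G f g ^ 2 = |G f g| ^ 2 := (sq_abs _).symm
      _ ≤ (m * (4 * Real.sqrt (ip f f * ip g g))) ^ 2 := pow_le_pow_left₀ (abs_nonneg _) h7 2
      _ = 16 * m ^ 2 * (Real.sqrt (ip f f * ip g g)) ^ 2 := by ring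
      _ = _ := by rw [Real.sq_sqrt h8]; ring
  have hGL : ∀ f, -G (L f) f = ∑ i, en (D i f) (D i f) := by
    intro f
    rw [hGa, ← Finset.sum_neg_distrib]
    refine Finset.sum_congr rfl fun i _ => ?_
    rw [hDL, hL, neg_neg]
  obtain ⟨v, s, hs1, hs2, hv0, hv⟩ := h V ip en (H + G) L hips hip0 hens hen0
    (fun f g => by
      simp only [LinearMap.add_apply]
      rw [hHs, hGa, hGa]
      congr 1
      exact Finset.sum_congr rfl fun i _ => hips _ _)
    (fun f => by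
      simp only [LinearMap.add_apply]
      rw [hGa]
      exact add_nonneg (hH0 f) (Finset.sum_nonneg fun i _ => hip0 _))
    hL
    (fun f => by
      simp only [LinearMap.add_apply]
      have h1 := hd f
      have h2 : 0 ≤ -G (L f) f := by
        rw [hGL]
        exact Finset.sum_nonneg fun i _ => hen0 _
      linarith)
    (by
      obtain ⟨B, hB⟩ := hB
      refine ⟨2 * |B| + 32 * m ^ 2, fun f g => ?_⟩
      simp only [LinearMap.add_apply]
      have h1 := hB f g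
      have h2 := hGb f g
      have e1 := hip0 f
      have e2 := hip0 (L f)
      have e3 := hip0 g
      have h3 : B * (ip f f + ip (L f) (L f)) * ip g g ≤ |B| * (ip f f + ip (L f) (L f)) * ip g g := by
        gcongr
        exact le_abs_self B
      have h4 : 16 * (m : ℝ) ^ 2 * ip f f * ip g g ≤
          16 * m ^ 2 * (ip f f + ip (L f) (L f)) * ip g g := by
        gcongr
        linarith
      have h5 : (H f g + G f g) ^ 2 ≤ 2 * H f g ^ 2 + 2 * G f g ^ 2 := by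
        nlinarith [sq_nonneg (H f g - G f g)]
      calc (H f g + G f g) ^ 2 ≤ 2 * H f g ^ 2 + 2 * G f g ^ 2 := h5
        _ ≤ 2 * (|B| * (ip f f + ip (L f) (L f)) * ip g g) +
            2 * (16 * m ^ 2 * (ip f f + ip (L f) (L f)) * ip g g) := by linarith
        _ = _ := by ring)
    hres K f₀ ε hε hε1 hf0 hfe
    (by
      simp only [LinearMap.add_apply]
      rw [hGa]
      exact hfH) hesc
  refine ⟨v, s, hs1, hs2, hv0, le_trans ?_ hv⟩
  simp only [LinearMap.add_apply]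
  have h1 : 0 ≤ G v v := by
    rw [hGa]
    exact Finset.sum_nonneg fun i _ => hip0 _
  have h2 : s * -(H (L v) v + G (L v) v) = s * -H (L v) v + s * ∑ i, en (T i v - v) (T i v - v) := by
    have h3 := hGL v
    simp only [hDa] at h3
    rw [← h3]
    ring
  rw [h2]
  have hε' : 0 < ε⁻¹ := inv_pos.2 hε
  have h4 : ε⁻¹ * (H v v + s * -H (L v) v + s * ∑ i, en (T i v - v) (T i v - v)) ≤
      ε⁻¹ * (H v v + G v v + (s * -H (L v) v + s * ∑ i, en (T i v - v) (T i v - v))) := by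
    apply mul_le_mul_of_nonneg_left _ hε'.le
    linarith
  linarith

end

end Vale.Agent.P284.H275
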