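import Vale.Agent.P284.H275.A1c
import Vale.Agent.P284.H501.A1

/-!
# P284 (helper275), module SC: proof of the relaxed lemma A1 from helper501's geometric steps
-/

open Filter Topology

noncomputable section

namespace Vale.Agent.P284.H275

open Vale.Agent.P284.H894.V.Abs Vale.Agent.P284.H501

theorem ev_small (a : ℝ) {b : ℝ} (hb : 0 < b) : ∀ᶠ ρ in 𝓝[>] (0 : ℝ), a * ρ ≤ b := by
  have h1 : Tendsto (fun ρ : ℝ => a * ρ) (𝓝[>] 0) (𝓝 (a * 0)) :=
    ((continuous_const.mul continuous_id).tendsto 0).mono_left nhdsWithin_le_nhds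
  rw [mul_zero] at h1
  filter_upwards [h1.eventually_lt_const hb] with ρ hρ using hρ.le

/-- **A1, relaxed form.** -/
theorem a1r : A1rStmt := by
  refine ⟨2000, by norm_num, ?_⟩
  intro V _ _ ip en H L ips ip0 ens en0 Hs H0 hL hd hB hres K f₀ ε hε hε1 hf0 hfe hfH hesc
  obtain ⟨C₀, hC₀⟩ := hB
  set C : ℝ := max C₀ 0 with hC
  have hC0 : 0 ≤ C := le_max_right _ _
  have hHC : ∀ f h, H f h ^ 2 ≤ C * (ip f f + ip (L f) (L f)) * ip h h := by
    intro f h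
    refine (hC₀ f h).trans ?_
    refine mul_le_mul_of_nonneg_right ?_ (ip0 h)
    exact mul_le_mul_of_nonneg_right (le_max_left _ _) (add_nonneg (ip0 _) (ip0 _))
  set F : ℝ := N ip f₀ with hF
  have hF2 : F ^ 2 = ip f₀ f₀ := N_sq ip0 f₀
  have hF0 : 0 < F := by
    have h1 : 0 ≤ F := N_nonneg _ _
    rcases h1.lt_or_eq with h2 | h2
    · exact h2
    · rw [← h2] at hF2
      norm_num at hF2
      linarith
  set R : ℝ := 11 / 10 * F with hR
  have hR0 : 0 < R := by positivity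
  set η : ℝ := ε * F ^ 2 / (800 * (K + 1)) with hη
  have hη0 : 0 < η := by positivity
  have hD : ∀ μ : ℝ, 0 < μ → D ip L μ := fun μ hμ => D_of (hres μ hμ)
  -- choice of `ρ`
  obtain ⟨ρ, hρ0, r1, r2, r3, r4, r5, r6⟩ : ∃ ρ : ℝ, 0 < ρ ∧ (2 * (K : ℝ) + 2) * ρ ≤ F / 10 ∧
      R * ρ ≤ η ∧ 1 * ρ ≤ R ∧ (Real.sqrt (2 * C) * R) * ρ ≤ η ∧
      (2 ^ K * (2 * K * R)) * ρ ≤ F ^ 2 / 2 ∧ (2 * K * R) * ρ ≤ F ^ 2 / 40 := by
    have h := (self_mem_nhdsWithin : Set.Ioi (0 : ℝ) ∈ 𝓝[>] (0 : ℝ))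
    have h' := ((((((ev_small (2 * (K : ℝ) + 2) (show 0 < F / 10 by positivity)).and
      (ev_small R hη0)).and (ev_small 1 hR0)).and (ev_small (Real.sqrt (2 * C) * R) hη0)).and
      (ev_small (2 ^ K * (2 * K * R)) (show 0 < F ^ 2 / 2 by positivity))).and
      (ev_small (2 * K * R) (show 0 < F ^ 2 / 40 by positivity))).and h
    obtain ⟨ρ, ⟨⟨⟨⟨⟨⟨h1, h2⟩, h3⟩, h4⟩, h5⟩, h6⟩, h7⟩⟩ := h'.exists
    exact ⟨ρ, h7, h1, h2, h3, h4, h5, h6⟩
  have hσ : ∀ j : ℕ, (1 : ℝ) ≤ 2 ^ j := fun j => one_le_pow₀ one_le_two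
  have hσ0 : ∀ j : ℕ, (0 : ℝ) < 2 ^ j := fun j => by positivity
  obtain ⟨u, r, hu⟩ := exists_aseq hD (σ := fun j => (2 : ℝ) ^ j) hσ0 f₀ hρ0
  obtain ⟨b, s, hb⟩ := exists_aseq hD (σ := fun i => (2 : ℝ) ^ (K - 1 - i)) (fun i => hσ0 _) (u K) hρ0
  have hRK : N ip f₀ + (2 * K + 2) * ρ ≤ R := by
    rw [hR]
    linarith
  have hKρ : 0 ≤ (K : ℝ) * ρ := by positivity
  have hRK' : N ip f₀ + (K + 1) * ρ ≤ R := by linarith
  obtain ⟨b1, b2, b3⟩ := hu.bd ips ip0 en0 hL hσ (K := K) (R := R) hRK'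
  -- the reversed chain
  obtain ⟨c1, c2, c3⟩ := reverse ips ip0 ens en0 hL hu hb hRK
  have hRR : R ^ 2 = 121 / 100 * F ^ 2 := by rw [hR]; ring
  have hFF : 0 < F ^ 2 := by positivity
  have hbb : ip (b K) (b K) ≤ 2 * ip f₀ f₀ := by
    rw [← N_sq ip0, ← hF2]
    have h1 := pow_le_pow_left₀ (N_nonneg ip (b K)) c2 2
    linarith
  have hεF : en f₀ f₀ ≤ F ^ 2 := by
    refine hfe.trans ?_
    rw [hF2]
    have := mul_le_mul_of_nonneg_right hε1 hf0.le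
    linarith
  have hbe : en (b K) (b K) ≤ 4 / 2 ^ K * ip f₀ f₀ := by
    have h1 : (2 : ℝ) ^ K * (2 * K * (R * ρ)) ≤ F ^ 2 / 2 := by
      refine le_of_eq_of_le ?_ r5
      ring
    have h2 : (2 : ℝ) ^ K * en (b K) (b K) ≤ 4 * F ^ 2 := by linarith
    rw [← hF2, div_mul_eq_mul_div, le_div_iff₀ (hσ0 K)]
    linarith
  have hesc' := hesc (b K) hbb hbe
  have huK : ip (u K) (u K) ≤ ip (u 0) (u 0) / 20 := by
    have h1 : 2 * K * (R * ρ) ≤ F ^ 2 / 40 := by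
      refine le_of_eq_of_le ?_ r6
      ring
    rw [hu.zero, ← hF2]
    rw [← hF2] at hesc'
    linarith
  -- the chain
  have hchain0 : Chain ip 0 L K η u r := by
    refine hu.chain ips ip0 en0 hL (C := 0) le_rfl (fun f r => ?_) hRK' r2 ?_ ?_
    · simp
    · have h1 : ρ * ρ ≤ R * ρ := mul_le_mul_of_nonneg_right (by linarith) hρ0.le
      linarith
    · rw [Real.sqrt_zero, zero_mul]
      exact hη0.le
  have hchain : Chain ip H L K η u r := by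
    refine ⟨hchain0.eqn, hchain0.e1, hchain0.e2, hchain0.e3, fun j hj i hi => ?_⟩
    refine le_trans ?_ r4
    refine abs_le.2 (abs_le_of_sq_le_sq' ?_ (by positivity))
    refine (hHC (u (i + 1)) (r j)).trans ?_
    have h1 : ip (u (i + 1)) (u (i + 1)) ≤ R ^ 2 := by
      rw [← N_sq ip0]
      exact pow_le_pow_left₀ (N_nonneg _ _) (b1 (i + 1) (by omega)) 2
    have h2 : ip (L (u (i + 1))) (L (u (i + 1))) ≤ R ^ 2 := by
      rw [← N_sq ip0]
      exact pow_le_pow_left₀ (N_nonneg _ _) (b2 i hi) 2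
    have h3 : ip (r j) (r j) ≤ ρ ^ 2 := by
      rw [← N_sq ip0]
      exact pow_le_pow_left₀ (N_nonneg _ _) (hu.small j) 2
    calc C * (ip (u (i + 1)) (u (i + 1)) + ip (L (u (i + 1))) (L (u (i + 1)))) * ip (r j) (r j)
        ≤ C * (R ^ 2 + R ^ 2) * ρ ^ 2 := by
          refine mul_le_mul (mul_le_mul_of_nonneg_left (add_le_add h1 h2) hC0) h3 (ip0 _) ?_
          positivity
      _ = (Real.sqrt (2 * C) * R * ρ) ^ 2 := by
          have h4 : Real.sqrt (2 * C) ^ 2 = 2 * C := Real.sq_sqrt (by positivity)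
          linear_combination (-(R ^ 2 * ρ ^ 2)) * h4
  obtain ⟨j, hj1, hjK, hj⟩ := geoE ip en H L (fun f => -H (L f) f) ips ip0 ens en0 Hs H0 hL hd
    (fun f => le_rfl) K u r η hchain ε hε hε1 (by rw [hu.zero]; exact hf0)
    (by
      rw [hu.zero, ← hF2, hη]
      have h1 : 800 * (((K : ℝ) + 1) * (ε * F ^ 2 / (800 * (K + 1)))) = ε * F ^ 2 := by
        have : ((K : ℝ) + 1) ≠ 0 := by positivity
        field_simp
      rw [h1]) huK (by rw [hu.zero]; exact hfe) (by rw [hu.zero]; exact hfH)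
  rw [hu.zero] at hj
  have hpos : 0 < ip f₀ f₀ / ((K : ℝ) + 1) := by positivity
  refine ⟨u j - u (j + 1), 2 ^ j, hσ j, pow_le_pow_right₀ one_le_two hjK, ?_, by linarith⟩
  have h1 := ip0 (u j - u (j + 1))
  have h2 : 0 ≤ ((2 : ℝ) ^ j) ^ 2 * ip (L (u j - u (j + 1))) (L (u j - u (j + 1))) :=
    mul_nonneg (by positivity) (ip0 _)
  have h3 : 0 ≤ ε⁻¹ * (H (u j - u (j + 1)) (u j - u (j + 1)) +
      (2 : ℝ) ^ j * -H (L (u j - u (j + 1))) (u j - u (j + 1))) :=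
    mul_nonneg (inv_nonneg.2 hε.le) (add_nonneg (H0 _) (mul_nonneg (hσ0 j).le (hd _)))
  have h4 : 0 < (2 : ℝ) ^ j * en (u j - u (j + 1)) (u j - u (j + 1)) := by linarith
  exact (mul_pos_iff_of_pos_left (hσ0 j)).1 h4

theorem a1c : A1cStmt := a1c_of a1r

end Vale.Agent.P284.H275
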