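import Vale.Agent.P284.H66.V10
import Vale.Agent.P284.H275.Tr

/-!
# P284 (helper275), module SC: Følner functions and central elements

For `Γ` amenable, `c i` finitely many central elements of `Γ` and `D ≥ 0` a continuous invariant
density which is not identically zero, there are test functions `f` with
`∫ |∂f|² + ∑ᵢ ∫ (T_{cᵢ} f - f)² < ε ∫ D f²`.
-/

open scoped Manifold ContDiff Topology Pointwise ComplexConjugate ComplexOrder
open Filter Set Metric MeasureTheory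

set_option linter.unusedSectionVars false

noncomputable section

namespace Vale.Agent.P284.H275

open Vale.Agent.P272.K Vale.Agent.P272.K.C2 Vale.Agent.P284.H248 Vale.Agent.P284.H894
  Vale.Agent.P284.H894.G Vale.Agent.P284.H894.V
  Vale.Agent.P284.H639.V Vale.Agent.P284.H66

variable {n : ℕ} {Γ : Type} [Group Γ] {C : Coc n Γ}

/-- the two cosets `c F` and `F` differ near `γ` -/
def cbd (C : Coc n Γ) (c : Γ) (F : Set Γ) : Set Γ :=
  {γ | ∃ s ∈ C.N, ((c⁻¹ * γ * s ∈ F ∧ γ * s ∉ F) ∨ (c⁻¹ * γ * s ∉ F ∧ γ * s ∈ F))}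

lemma cbd_sub (C : Coc n Γ) {c : Γ} (hc : ∀ g, c * g = g * c) (F : Set Γ) :
    cbd C c F ⊆ ⋃ s ∈ C.N, ((fun g => c * g * s⁻¹) '' {g ∈ F | g * c ∉ F} ∪
      (fun g => g * s⁻¹) '' {g ∈ F | g * c⁻¹ ∉ F}) := by
  rintro γ ⟨s, hs, h⟩
  simp only [mem_iUnion]
  refine ⟨s, hs, ?_⟩
  have hc' : ∀ g, c⁻¹ * g = g * c⁻¹ := fun g => by
    rw [inv_mul_eq_iff_eq_mul, ← mul_assoc, hc, mul_assoc, mul_inv_cancel, mul_one]
  rcases h with ⟨h1, h2⟩ | ⟨h1, h2⟩
  · refine Or.inl ⟨c⁻¹ * γ * s, ⟨h1, ?_⟩, by group⟩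
    rwa [← hc, mul_assoc, mul_inv_cancel_left]
  · refine Or.inr ⟨γ * s, ⟨h2, ?_⟩, by group⟩
    rwa [← hc', ← mul_assoc]

lemma cbd_finite {c : Γ} (hc : ∀ g, c * g = g * c) {F : Set Γ} (hF : F.Finite) :
    (cbd C c F).Finite := by
  refine Set.Finite.subset ?_ (cbd_sub C hc F)
  refine Set.Finite.biUnion C.N.finite_toSet fun s _ => ?_
  exact ((hF.subset (sep_subset _ _)).image _).union ((hF.subset (sep_subset _ _)).image _)

lemma cbd_card {c : Γ} (hc : ∀ g, c * g = g * c) {F : Set Γ} (hF : F.Finite) {δ : ℝ}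
    (h1 : (({g ∈ F | g * c ∉ F}.ncard : ℕ) : ℝ) ≤ δ * F.ncard)
    (h2 : (({g ∈ F | g * c⁻¹ ∉ F}.ncard : ℕ) : ℝ) ≤ δ * F.ncard) :
    ((cbd C c F).ncard : ℝ) ≤ C.N.card * (2 * (δ * F.ncard)) := by
  classical
  have hf1 : {g ∈ F | g * c ∉ F}.Finite := hF.subset (sep_subset _ _)
  have hf2 : {g ∈ F | g * c⁻¹ ∉ F}.Finite := hF.subset (sep_subset _ _)
  have hU : ((⋃ s ∈ C.N, ((fun g => c * g * s⁻¹) '' {g ∈ F | g * c ∉ F} ∪
      (fun g => g * s⁻¹) '' {g ∈ F | g * c⁻¹ ∉ F})) : Set Γ).Finite :=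
    Set.Finite.biUnion C.N.finite_toSet fun s _ => (hf1.image _).union (hf2.image _)
  have h3 : (cbd C c F).ncard ≤ ∑ s ∈ C.N, ((fun g => c * g * s⁻¹) '' {g ∈ F | g * c ∉ F} ∪
      (fun g => g * s⁻¹) '' {g ∈ F | g * c⁻¹ ∉ F}).ncard :=
    (ncard_le_ncard (cbd_sub C hc F) hU).trans (Finset.set_ncard_biUnion_le _ _)
  have h4 : ∀ s ∈ C.N, ((((fun g => c * g * s⁻¹) '' {g ∈ F | g * c ∉ F} ∪
      (fun g => g * s⁻¹) '' {g ∈ F | g * c⁻¹ ∉ F}).ncard : ℕ) : ℝ) ≤ 2 * (δ * F.ncard) := by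
    intro s _
    have h5 : ((fun g => c * g * s⁻¹) '' {g ∈ F | g * c ∉ F} ∪
      (fun g => g * s⁻¹) '' {g ∈ F | g * c⁻¹ ∉ F}).ncard ≤
        {g ∈ F | g * c ∉ F}.ncard + {g ∈ F | g * c⁻¹ ∉ F}.ncard :=
      (ncard_union_le _ _).trans (Nat.add_le_add (ncard_image_le hf1) (ncard_image_le hf2))
    have h6 : ((((fun g => c * g * s⁻¹) '' {g ∈ F | g * c ∉ F} ∪
      (fun g => g * s⁻¹) '' {g ∈ F | g * c⁻¹ ∉ F}).ncard : ℕ) : ℝ) ≤
        ({g ∈ F | g * c ∉ F}.ncard : ℝ) + ({g ∈ F | g * c⁻¹ ∉ F}.ncard : ℝ) := by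
      exact_mod_cast h5
    linarith
  calc ((cbd C c F).ncard : ℝ)
      ≤ ∑ s ∈ C.N, ((((fun g => c * g * s⁻¹) '' {g ∈ F | g * c ∉ F} ∪
      (fun g => g * s⁻¹) '' {g ∈ F | g * c⁻¹ ∉ F}).ncard : ℕ) : ℝ) := by exact_mod_cast h3
    _ ≤ ∑ s ∈ C.N, 2 * (δ * F.ncard) := Finset.sum_le_sum h4
    _ = _ := by rw [Finset.sum_const, nsmul_eq_mul]

/-- the cut-off functions of `c F` and `F` agree away from `cbd` -/
lemma tr_phi_sub (P : PU C) {c : Γ} {F : Set Γ} {γ : Γ} {a : C.I} {z : Cm n} (hz : z ∈ C.V a)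
    (h0 : tr c (phi P F) γ a z - phi P F γ a z ≠ 0) : γ ∈ cbd C c F := by
  by_contra hcon
  refine h0 ?_
  rw [tr_apply, phi_mem P F _ (V_sub_Ω C a hz), phi_mem P F _ (V_sub_Ω C a hz),
    ← Finset.sum_sub_distrib]
  refine Finset.sum_eq_zero fun b _ => ?_
  by_cases hb : P.χ b a z = 0
  · rw [hb]; ring
  · have hs := kap_mem P hz hb
    have h1 : ind F (c⁻¹ * γ * C.κ a b z) = ind F (γ * C.κ a b z) := by
      by_cases h2 : c⁻¹ * γ * C.κ a b z ∈ F <;> by_cases h3 : γ * C.κ a b z ∈ F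
      · rw [ind_mem h2, ind_mem h3]
      · exact absurd ⟨_, hs, Or.inl ⟨h2, h3⟩⟩ hcon
      · exact absurd ⟨_, hs, Or.inr ⟨h2, h3⟩⟩ hcon
      · rw [ind_notMem h2, ind_notMem h3]
    rw [h1, sub_self]

/-- upper bound of `∫ (T_c φ - φ)²` -/
theorem tr_norm_le (P : PU C) (K : KM C) : ∃ Q : ℝ, 0 < Q ∧
    ∀ (c : Γ), (∀ g, c * g = g * c) → ∀ F : Set Γ, F.Finite →
    Vale.Agent.P284.H894.V.Int P K (fun γ a z => (tr c (phi P F) γ a z - phi P F γ a z) ^ 2) ≤
      (cbd C c F).ncard * Q := by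
  have hLam : ∀ a : C.I, 0 < K.Lam := fun a => by
    have hc : C.c a ∈ C.Ω a := mem_ball_self (by have := C.r_pos a; linarith)
    exact (vol_pos K hc).trans_le (K.vol_up a _ hc)
  refine ⟨1 + ∑ a, K.Lam * volume.real (C.V a), ?_, fun c hc F hF => ?_⟩
  · have : 0 ≤ ∑ a, K.Lam * volume.real (C.V a) :=
      Finset.sum_nonneg fun a _ => by have := hLam a; positivity
    linarith
  have hfin := cbd_finite (C := C) hc hF
  unfold Vale.Agent.P284.H894.V.Int
  rw [tsum_eq_sum (s := hfin.toFinset)]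
  · rw [ncard_eq_toFinset_card _ hfin, ← nsmul_eq_mul]
    refine Finset.sum_le_card_nsmul _ _ _ fun γ _ => ?_
    refine le_trans ?_ (le_add_of_nonneg_left zero_le_one)
    refine Finset.sum_le_sum fun a _ => ?_
    refine (le_abs_self _).trans ?_
    rw [← Real.norm_eq_abs]
    refine norm_setIntegral_le_of_norm_le_const (volume_V_lt C a) fun z hz => ?_
    have hz' := V_sub_Ω C a hz
    have h3 := (vol_pos K hz').le
    have h1 : 0 ≤ (tr c (phi P F) γ a z - phi P F γ a z) ^ 2 := sq_nonneg _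
    have h2 : (tr c (phi P F) γ a z - phi P F γ a z) ^ 2 ≤ 1 := by
      rw [tr_apply]
      have e1 := phi_nonneg P F (c⁻¹ * γ) a z
      have e2 := phi_le_one P F (c⁻¹ * γ) a z
      have e3 := phi_nonneg P F γ a z
      have e4 := phi_le_one P F γ a z
      nlinarith
    rw [Real.norm_of_nonneg (mul_nonneg (mul_nonneg (P.nonneg _ _ _) h1) h3)]
    have h4 : P.χ a a z * (tr c (phi P F) γ a z - phi P F γ a z) ^ 2 ≤ 1 :=
      (mul_le_of_le_one_left h1 (chi_le_one P a hz')).trans h2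
    calc P.χ a a z * (tr c (phi P F) γ a z - phi P F γ a z) ^ 2 * vol (K.w a) z ≤
        1 * K.Lam := mul_le_mul h4 (K.vol_up a z hz') h3 zero_le_one
      _ = K.Lam := one_mul _
  · intro γ hγ
    refine Finset.sum_eq_zero fun a _ => ?_
    rw [← integral_zero (Cm n) ℝ (μ := volume.restrict (C.V a))]
    refine setIntegral_congr_fun measurableSet_ball fun z hz => ?_
    have h0 : tr c (phi P F) γ a z - phi P F γ a z = 0 := by
      by_contra hne
      exact hγ (hfin.mem_toFinset.2 (tr_phi_sub P hz hne))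
    simp only [h0]
    ring

/-- lower bound of the `L²` norm of a cut-off function, for a density `D` -/
theorem norm_ge_D (h3 : V3Stmt) (P : PU C) (K : KM C) (D : C.I → Cm n → ℝ)
    (hDc : ∀ a, ContinuousOn (D a) (C.Ω a)) (hD0 : ∀ a, ∀ z ∈ C.Ω a, 0 ≤ D a z)
    (hDt : ∀ a b, ∀ z ∈ C.O a b, D a z = D b (C.T a b z))
    (hDne : ∃ a, ∃ z ∈ C.V a, D a z ≠ 0) : ∃ q : ℝ, 0 < q ∧
    ∀ F : Set Γ, F.Finite → (inn C F).ncard * q ≤
      Vale.Agent.P284.H894.V.Int P K (fun γ a z => D a z * phi P F γ a z ^ 2) := by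
  obtain ⟨a, z₀, hz₀, hD⟩ := hDne
  have hcont : ContinuousOn (fun z => D a z * vol (K.w a) z) (C.Ω a) :=
    (hDc a).mul fun z hz => (smooth_vol (K.ku a) hz).continuousAt.continuousWithinAt
  have hpos : 0 < ∫ z in C.V a, D a z * vol (K.w a) z := by
    rw [setIntegral_pos_iff_support_of_nonneg_ae]
    · have hopen : IsOpen (C.V a ∩ {z | D a z * vol (K.w a) z ≠ 0}) := by
        have h1 : ContinuousOn (fun z => D a z * vol (K.w a) z) (C.V a) :=
          hcont.mono (V_sub_Ω C a)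
        exact h1.isOpen_inter_preimage isOpen_ball isOpen_ne
      refine lt_of_lt_of_le (hopen.measure_pos volume ⟨z₀, hz₀, ?_⟩) (measure_mono ?_)
      · exact mul_ne_zero hD (vol_pos K (V_sub_Ω C a hz₀)).ne'
      · rintro z ⟨h1, h2⟩
        exact ⟨h2, h1⟩
    · filter_upwards [ae_restrict_mem measurableSet_ball] with z hz
      exact mul_nonneg (hD0 a z (V_sub_Ω C a hz)) (vol_pos K (V_sub_Ω C a hz)).le
    · have hci : ContinuousOn (fun z => D a z * vol (K.w a) z) (closedBall (C.c a) (3 * C.r a)) :=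
        hcont.mono (closed_sub_Ω C a)
      exact (hci.integrableOn_compact (isCompact_closedBall _ _)).mono_set (V_sub_closed C a)
  refine ⟨∫ z in C.V a, D a z * vol (K.w a) z, hpos, fun F hF => ?_⟩
  have hφ := isTst_phi P hF
  have hfam0 : Fam C (fun γ a z => phi P F γ a z ^ 2) := by
    have := isTst_fam (isTst_mul hφ hφ)
    simpa only [← pow_two] using this
  have hfam : Fam C (fun γ a z => D a z * phi P F γ a z ^ 2) := by
    refine ⟨fun γ a => (hDc a).mul (hfam0.cont γ a), fun γ a b z hz => ?_, ?_⟩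
    · rw [hfam0.compat γ a b z hz, hDt a b z hz]
    · refine hfam0.fin.subset ?_
      rintro γ ⟨a, z, hz, h⟩
      exact ⟨a, z, hz, right_ne_zero_of_mul h⟩
  refine le_trans ?_ (h3.le C P K _ hfam (fun γ a z hz =>
    mul_nonneg (hD0 a z hz) (sq_nonneg _)) a)
  have hinn : (inn C F).Finite := hF.subset (sep_subset _ _)
  have hnn : ∀ γ, 0 ≤ ∫ z in C.V a, D a z * phi P F γ a z ^ 2 * vol (K.w a) z := fun γ =>
    setIntegral_nonneg measurableSet_ball fun z hz =>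
      mul_nonneg (mul_nonneg (hD0 a z (V_sub_Ω C a hz)) (sq_nonneg _))
        (vol_pos K (V_sub_Ω C a hz)).le
  have hsum : Summable fun γ => ∫ z in C.V a, D a z * phi P F γ a z ^ 2 * vol (K.w a) z := by
    refine summable_of_ne_finset_zero (s := hφ.fin.toFinset) fun γ hγ => ?_
    rw [← integral_zero (Cm n) ℝ (μ := volume.restrict (C.V a))]
    refine setIntegral_congr_fun measurableSet_ball fun z hz => ?_
    have h0 : phi P F γ a z = 0 := by
      by_contra hne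
      exact hγ (hφ.fin.mem_toFinset.2 ⟨a, z, hz, hne⟩)
    simp only [h0]
    ring
  refine le_trans ?_ (hsum.sum_le_tsum hinn.toFinset fun γ _ => hnn γ)
  rw [ncard_eq_toFinset_card _ hinn, ← nsmul_eq_mul]
  refine Finset.card_nsmul_le_sum _ _ _ fun γ hγ => ?_
  have hγ' := (hinn.mem_toFinset.1 hγ).2
  refine le_of_eq (setIntegral_congr_fun measurableSet_ball fun z hz => ?_)
  simp only [phi_eq_one P hγ' hz]
  ring

/-- **Følner functions and central elements.** -/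
theorem cen_folner (hp : VPStmt) (h3 : V3Stmt) (P : PU C) (K : KM C) (hfol : Folner Γ)
    {ι : Type*} [Fintype ι] (c : ι → Γ) (hc : ∀ i g, c i * g = g * c i) (D : C.I → Cm n → ℝ)
    (hDc : ∀ a, ContinuousOn (D a) (C.Ω a)) (hD0 : ∀ a, ∀ z ∈ C.Ω a, 0 ≤ D a z)
    (hDt : ∀ a b, ∀ z ∈ C.O a b, D a z = D b (C.T a b z))
    (hDne : ∃ a, ∃ z ∈ C.V a, D a z ≠ 0) {ε : ℝ} (hε : 0 < ε) :
    ∃ f, IsTst C f ∧ Vale.Agent.P284.H894.V.Int P K (Gr K f f) +
      ∑ i, Vale.Agent.P284.H894.V.Int P K (fun γ a z => (tr (c i) f γ a z - f γ a z) ^ 2) <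
      ε * Vale.Agent.P284.H894.V.Int P K (fun γ a z => D a z * f γ a z ^ 2) := by
  classical
  obtain ⟨Q, hQ, hup⟩ := energy_le hp P K
  obtain ⟨Q', hQ', hup'⟩ := tr_norm_le P K
  obtain ⟨q, hq, hlow⟩ := norm_ge_D h3 P K D hDc hD0 hDt hDne
  set m : ℝ := (C.N.card : ℝ) with hm
  have hm0 : 0 ≤ m := Nat.cast_nonneg _
  set k : ℝ := (Fintype.card ι : ℝ) with hk
  have hk0 : 0 ≤ k := Nat.cast_nonneg _
  set R : ℝ := m ^ 2 * Q + k * (2 * m * Q') + 1 with hR
  have hR1 : 1 ≤ R := by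
    have h1 : 0 ≤ m ^ 2 * Q := by positivity
    have h2 : 0 ≤ k * (2 * m * Q') := by positivity
    linarith
  set δ : ℝ := min (1 / (2 * (m + 1))) (ε * q / (4 * R)) with hδ
  have hδ0 : 0 < δ := lt_min (by positivity) (by positivity)
  have hδ1 : m * δ ≤ 1 / 2 := by
    have h1 : δ ≤ 1 / (2 * (m + 1)) := min_le_left _ _
    have h2 : m * (1 / (2 * (m + 1))) ≤ 1 / 2 := by
      rw [mul_one_div, div_le_div_iff₀ (by positivity) (by norm_num)]
      linarith
    exact (mul_le_mul_of_nonneg_left h1 hm0).trans h2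
  have hδ2 : R * δ ≤ ε * q / 4 := by
    have h1 : δ ≤ ε * q / (4 * R) := min_le_right _ _
    calc R * δ ≤ R * (ε * q / (4 * R)) := mul_le_mul_of_nonneg_left h1 (by linarith)
      _ = ε * q / 4 := by field_simp
  set T : Finset Γ := (C.N ∪ (C.N ×ˢ C.N).image fun p => p.1⁻¹ * p.2) ∪
    (Finset.univ.image c ∪ Finset.univ.image fun i => (c i)⁻¹) with hT
  obtain ⟨F, hF, hne, hfo⟩ := exists_right_folner hfol T hδ0
  have hF0 : (0 : ℝ) < F.ncard := by exact_mod_cast (ncard_pos hF).2 hne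
  have hb := bd_card (C := C) hF (δ := δ) fun s hs s' hs' => hfo _
    (Finset.mem_union_left _ (Finset.mem_union_right _
      (Finset.mem_image.2 ⟨(s, s'), Finset.mk_mem_product hs hs', rfl⟩)))
  have hi := inn_card (C := C) hF (δ := δ) fun s hs => hfo s
    (Finset.mem_union_left _ (Finset.mem_union_left _ hs))
  have hcb : ∀ i, ((cbd C (c i) F).ncard : ℝ) ≤ m * (2 * (δ * F.ncard)) := fun i =>
    cbd_card (hc i) hF
      (hfo _ (Finset.mem_union_right _ (Finset.mem_union_left _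
        (Finset.mem_image_of_mem _ (Finset.mem_univ i)))))
      (hfo _ (Finset.mem_union_right _ (Finset.mem_union_right _
        (Finset.mem_image_of_mem _ (Finset.mem_univ i)))))
  refine ⟨phi P F, isTst_phi P hF, ?_⟩
  have h1 := hup F hF
  have h2 := hlow F hF
  have h4 : (F.ncard : ℝ) / 2 ≤ (inn C F).ncard := by nlinarith
  have h5 : ((bd C F).ncard : ℝ) * Q ≤ (m ^ 2 * (δ * F.ncard)) * Q :=
    mul_le_mul_of_nonneg_right hb hQ.le
  have h6 : ∑ i, Vale.Agent.P284.H894.V.Int P K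
      (fun γ a z => (tr (c i) (phi P F) γ a z - phi P F γ a z) ^ 2) ≤
      k * (m * (2 * (δ * F.ncard)) * Q') := by
    calc ∑ i, Vale.Agent.P284.H894.V.Int P K
          (fun γ a z => (tr (c i) (phi P F) γ a z - phi P F γ a z) ^ 2)
        ≤ ∑ _i : ι, m * (2 * (δ * F.ncard)) * Q' := by
          refine Finset.sum_le_sum fun i _ => (hup' (c i) (hc i) F hF).trans ?_
          exact mul_le_mul_of_nonneg_right (hcb i) hQ'.le
      _ = _ := by rw [Finset.sum_const, Finset.card_univ, nsmul_eq_mul]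
  have h7 : (m ^ 2 * (δ * F.ncard)) * Q + k * (m * (2 * (δ * F.ncard)) * Q') ≤
      R * δ * F.ncard := by
    have e : (m ^ 2 * (δ * F.ncard)) * Q + k * (m * (2 * (δ * F.ncard)) * Q') =
      (R - 1) * δ * F.ncard := by rw [hR]; ring
    rw [e]
    have : 0 ≤ δ * F.ncard := by positivity
    nlinarith
  have h8 : R * δ * F.ncard ≤ ε * q / 4 * F.ncard := mul_le_mul_of_nonneg_right hδ2 hF0.le
  have h9 : ε * ((F.ncard : ℝ) / 2 * q) ≤ ε * ((inn C F).ncard * q) :=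
    mul_le_mul_of_nonneg_left (mul_le_mul_of_nonneg_right h4 hq.le) hε.le
  have h10 := mul_le_mul_of_nonneg_left h2 hε.le
  have h11 : 0 < ε * q * F.ncard := by positivity
  nlinarith

end Vale.Agent.P284.H275
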