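import Vale.Agent.P284.H275.Cen
import Vale.Agent.P284.H213.A.PB

/-!
# P284 (helper275), module SC: the Følner input of (A'') with finitely many central elements

In helper402's notation: `∫ |∂f|² + ∑ᵢ ∫ (T_{cᵢ} f - f)² < ε ∫ |Ω_A|² f²`.
-/

open scoped Manifold ContDiff Topology Pointwise ComplexConjugate ComplexOrder Matrix
open Filter Set Metric MeasureTheory

noncomputable section

namespace Vale.Agent.P284.H275

open Vale.Agent.P272.K Vale.Agent.P284.H248 Vale.Agent.P284.H894 Vale.Agent.P284.H894.G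
  Vale.Agent.P284.H894.V Vale.Agent.P284.H402.A

variable {n q : ℕ} {Γ : Type} [Group Γ] {C : Coc n Γ}

theorem fol_ip (hp : VPStmt) (h3 : V3Stmt) (P : PU C) (K : KM C) (θ : HF C q) (hfol : Folner Γ)
    {ι : Type*} [Fintype ι] (c : ι → Γ) (hc : ∀ i g, c i * g = g * c i) {ε : ℝ} (hε : 0 < ε) :
    ∃ f, IsTst C f ∧ Vale.Agent.P284.H894.V.Int P K (Gr K f f) +
      ∑ i, Vale.Agent.P284.H894.V.Int P K (fun γ a z => (tr (c i) f γ a z - f γ a z) ^ 2) < ε * Vale.Agent.P284.H402.A.ip P K θ 0 f f := by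
  obtain ⟨f, hf, h⟩ := cen_folner hp h3 P K hfol c hc (dD K θ 0)
    (fun a z hz => (Vale.Agent.P284.H213.PB.dD_smooth K θ hz).continuousAt.continuousWithinAt)
    (fun a z hz => Vale.Agent.P284.H213.PB.dD_nonneg K θ hz) (fun a b z hz => Vale.Agent.P284.H213.PB.dD_change K θ hz)
    (by
      obtain ⟨a⟩ := C.ne
      obtain ⟨y, ρ, d, hρ, hd, hsub, hlow⟩ := Vale.Agent.P284.H213.PB.exists_ball K θ a
      exact ⟨a, y, C.W_sub a (hsub (mem_ball_self hρ)), (hd.trans_le (hlow y (mem_ball_self hρ))).ne'⟩)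
    hε
  refine ⟨f, hf, ?_⟩
  have e : Vale.Agent.P284.H402.A.ip P K θ 0 f f = Vale.Agent.P284.H894.V.Int P K (fun γ a z => dD K θ 0 a z * f γ a z ^ 2) := by
    unfold Vale.Agent.P284.H402.A.ip
    congr 1
    funext γ a z
    rw [pow_two]
  rw [e]
  exact h

end Vale.Agent.P284.H275
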