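import Mathlib.Analysis.InnerProductSpace.Projection.Basic
import Mathlib.Analysis.InnerProductSpace.Adjoint
import Mathlib.Analysis.Complex.Basic

/-!
# P284 (helper275), module SC: restriction of a unitary representation to the closed span of an
invariant set of vectors
-/

open scoped InnerProductSpace
open Filter Set Metric

noncomputable section

namespace Vale.Agent.P284.H275

variable {Γ : Type*} [Group Γ] {W : Type} [NormedAddCommGroup W] [InnerProductSpace ℂ W]

/-- `W₀`, with the orthogonal projection `P`, the inclusion `J` and the representation `π₀`, is the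
restriction of the representation `π`. -/
structure Restr (π : Γ →* (W ≃ₗᵢ[ℂ] W)) (A : Set W) (W₀ : Type) [NormedAddCommGroup W₀]
    [InnerProductSpace ℂ W₀] (P : W →L[ℂ] W₀) (J : W₀ →ₗᵢ[ℂ] W)
    (π₀ : Γ →* (W₀ ≃ₗᵢ[ℂ] W₀)) : Prop where
  inner : ∀ x y, ⟪x, P y⟫_ℂ = ⟪J x, y⟫_ℂ
  PJ : ∀ x, P (J x) = x
  JP : ∀ a ∈ A, J (P a) = a
  Pπ : ∀ g x, P (π g x) = π₀ g (P x)
  Jπ : ∀ g x, J (π₀ g x) = π g (J x)
  norm_le : ∀ x, ‖P x‖ ≤ ‖x‖
  triv : ∀ g, (∀ a ∈ A, π g a = a) → π₀ g = 1
  dense : ∀ x : W₀, (∀ a ∈ A, ⟪x, P a⟫_ℂ = 0) → x = 0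

theorem exists_restr [CompleteSpace W] (π : Γ →* (W ≃ₗᵢ[ℂ] W)) (A : Set W)
    (hA : ∀ g, ∀ a ∈ A, π g a ∈ A) :
    ∃ (W₀ : Type) (_ : NormedAddCommGroup W₀) (_ : InnerProductSpace ℂ W₀) (_ : CompleteSpace W₀)
      (P : W →L[ℂ] W₀) (J : W₀ →ₗᵢ[ℂ] W) (π₀ : Γ →* (W₀ ≃ₗᵢ[ℂ] W₀)), Restr π A W₀ P J π₀ := by
  set M : Submodule ℂ W := (Submodule.span ℂ A).topologicalClosure with hM
  have hMc : IsClosed (M : Set W) := Submodule.isClosed_topologicalClosure _
  have hMcomp : CompleteSpace M := hMc.completeSpace_coe
  have hAM : ∀ a ∈ A, a ∈ M := fun a ha =>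
    Submodule.le_topologicalClosure _ (Submodule.subset_span ha)
  have hπM : ∀ g, ∀ x ∈ M, π g x ∈ M := by
    intro g x hx
    have h1 : (M : Set W) ⊆ (π g) ⁻¹' (M : Set W) := by
      rw [hM, Submodule.topologicalClosure_coe]
      refine closure_minimal ?_ ?_
      · intro y hy
        have hy' : y ∈ Submodule.span ℂ A := hy
        show π g y ∈ closure (Submodule.span ℂ A : Set W)
        refine subset_closure ?_
        show π g y ∈ Submodule.span ℂ A
        induction hy' using Submodule.span_induction with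
        | mem a ha => exact Submodule.subset_span (hA g a ha)
        | zero => rw [map_zero]; exact zero_mem _
        | add a b _ _ iha ihb =>
          rw [map_add]
          exact add_mem (iha (by assumption)) (ihb (by assumption))
        | smul c a _ iha =>
          rw [map_smul]
          exact Submodule.smul_mem _ _ (iha (by assumption))
      · exact isClosed_closure.preimage (π g).continuous
    exact h1 hx
  have hmul : ∀ g h x, π (g * h) x = π g (π h x) := fun g h x => by
    rw [map_mul]; rfl
  have hone : ∀ x, π 1 x = x := fun x => by rw [map_one]; rfl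
  have hinv : ∀ g x, π g⁻¹ (π g x) = x := fun g x => by
    rw [← hmul, inv_mul_cancel, hone]
  have hinv' : ∀ g x, π g (π g⁻¹ x) = x := fun g x => by
    rw [← hmul, mul_inv_cancel, hone]
  let L : Γ → (M ≃ₗᵢ[ℂ] M) := fun g =>
    { toFun := fun x => ⟨π g x, hπM g x x.2⟩
      invFun := fun x => ⟨π g⁻¹ x, hπM g⁻¹ x x.2⟩
      map_add' := fun x y => by
        ext
        simp
      map_smul' := fun c x => by
        ext
        simp
      left_inv := fun x => by
        ext
        exact hinv g x
      right_inv := fun x => by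
        ext
        exact hinv' g x
      norm_map' := fun x => (π g).norm_map x }
  have hLa : ∀ g x, ((L g x : M) : W) = π g x := fun g x => rfl
  let π₀ : Γ →* (M ≃ₗᵢ[ℂ] M) :=
    { toFun := L
      map_one' := by
        ext x
        rw [hLa, hone]
        rfl
      map_mul' := fun g h => by
        ext x
        rw [hLa, hmul]
        rfl }
  have hπ₀ : ∀ g x, ((π₀ g x : M) : W) = π g x := fun g x => rfl
  have hPi : ∀ (x : M) (y : W), ⟪x, M.orthogonalProjectionOnto y⟫_ℂ = ⟪(x : W), y⟫_ℂ := by
    intro x y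
    exact Submodule.inner_orthogonalProjectionOnto_eq_of_mem_left x y
  have hπi : ∀ g x y, ⟪π g x, y⟫_ℂ = ⟪x, π g⁻¹ y⟫_ℂ := by
    intro g x y
    conv_lhs => rw [← hinv' g y]
    exact (π g).inner_map_map x (π g⁻¹ y)
  refine ⟨M, inferInstance, inferInstance, hMcomp, M.orthogonalProjectionOnto, M.subtypeₗᵢ, π₀,
    ⟨hPi, fun x => ?_, fun a ha => ?_, fun g x => ?_, fun g x => rfl, fun x => ?_, fun g hg => ?_,
      fun x hx => ?_⟩⟩
  · exact Submodule.orthogonalProjectionOnto_mem_subspace_eq_self x
  · exact Submodule.starProjection_eq_self_iff.2 (hAM a ha)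
  · refine ext_inner_left ℂ fun y => ?_
    rw [hPi]
    have h1 : ⟪y, π₀ g (M.orthogonalProjectionOnto x)⟫_ℂ = ⟪π₀ g⁻¹ y, M.orthogonalProjectionOnto x⟫_ℂ := by
      have h2 : π₀ g (π₀ g⁻¹ y) = y := by
        ext
        exact hinv' g y
      conv_lhs => rw [← h2]
      exact (π₀ g).inner_map_map _ _
    rw [h1, hPi, hπ₀, hπi, inv_inv]
  · exact (M.norm_orthogonalProjectionOnto_apply_le x)
  · ext x
    rw [hπ₀]
    have h1 : (M : Set W) ⊆ {y | π g y = y} := by
      rw [hM, Submodule.topologicalClosure_coe]
      refine closure_minimal ?_ (isClosed_eq (π g).continuous continuous_id)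
      intro y hy
      have hy' : y ∈ Submodule.span ℂ A := hy
      show π g y = y
      induction hy' using Submodule.span_induction with
      | mem a ha => exact hg a ha
      | zero => rw [map_zero]
      | add a b _ _ iha ihb => rw [map_add, iha (by assumption), ihb (by assumption)]
      | smul c a _ iha => rw [map_smul, iha (by assumption)]
    exact h1 x.2
  · have h0 : (M : Set W) ⊆ closure (Submodule.span ℂ A : Set W) :=
      (Submodule.topologicalClosure_coe _).le
    have h1 : (M : Set W) ⊆ {y | ⟪(x : W), y⟫_ℂ = 0} := by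
      refine h0.trans (closure_minimal ?_ (isClosed_eq (continuous_const.inner continuous_id)
        continuous_const))
      intro y hy
      have hy' : y ∈ Submodule.span ℂ A := hy
      show ⟪(x : W), y⟫_ℂ = 0
      induction hy' using Submodule.span_induction with
      | mem a ha =>
        have := hx a ha
        rwa [hPi] at this
      | zero => rw [inner_zero_right]
      | add a b _ _ iha ihb =>
        rw [inner_add_right, iha (by assumption), ihb (by assumption), add_zero]
      | smul c a _ iha => rw [inner_smul_right, iha (by assumption), mul_zero]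
    have h2 : ⟪(x : W), (x : W)⟫_ℂ = 0 := h1 x.2
    have h3 : (x : W) = 0 := inner_self_eq_zero.1 h2
    exact Subtype.ext h3

end Vale.Agent.P284.H275
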